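import Vale.Agent.P224.Gap.Defs

/-!
# P224: consequences of the primitive calculus (`ΔF = -mF`, `Δν = -|A|²ν`, Simons, Green)
-/

namespace Vale.Agent.P224.Gap

open MeasureTheory Filter Topology
open scoped ContDiff

namespace MinimalImmersion

variable {m : ℕ} {M : Type} [TopologicalSpace M] [MeasurableSpace M] (S : MinimalImmersion m M)

/-- The tangent projection. -/
def proj (j k : Fin (m + 2)) (x : M) : ℝ :=
  (if j = k then 1 else 0) - S.pos x j * S.pos x k - S.nrm x j * S.nrm x k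

/-- `∇u · ∇v`. -/
def gdot (u v : M → ℝ) (x : M) : ℝ := ∑ i, S.D i u x * S.D i v x

/-- The Laplacian. -/
def lap (u : M → ℝ) (x : M) : ℝ := ∑ i, S.D i (S.D i u) x

/-- The coordinate `⟨F, v⟩`. -/
def posL (v : Fin (m + 2) → ℝ) (x : M) : ℝ := ∑ i, S.pos x i * v i

/-- The coordinate `⟨ν, v⟩`. -/
def nrmL (v : Fin (m + 2) → ℝ) (x : M) : ℝ := ∑ i, S.nrm x i * v i

theorem smooth_smul (c : ℝ) {u : M → ℝ} (hu : S.Smooth u) : S.Smooth fun x => c * u x :=
  S.smooth_mul _ _ (S.smooth_const c) hu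

theorem smooth_neg {u : M → ℝ} (hu : S.Smooth u) : S.Smooth fun x => -u x := by
  simpa using S.smooth_smul (-1) hu

theorem smooth_sub {u v : M → ℝ} (hu : S.Smooth u) (hv : S.Smooth v) :
    S.Smooth fun x => u x - v x := by
  simpa [sub_eq_add_neg] using S.smooth_add _ _ hu (S.smooth_neg hv)

theorem smooth_sum {ι : Type} (s : Finset ι) (u : ι → M → ℝ) (hu : ∀ i, S.Smooth (u i)) :
    S.Smooth fun x => ∑ i ∈ s, u i x := by
  classical
  induction s using Finset.induction with
  | empty => simpa using S.smooth_const 0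
  | insert a t ha ih => simpa [ha] using S.smooth_add _ _ (hu a) ih

theorem D_const (i : Fin (m + 2)) (c : ℝ) (x : M) : S.D i (fun _ => c) x = 0 := by
  simpa using S.D_comp i _ (fun _ => c) (S.smooth_pos i) contDiff_const x

theorem D_smul (i : Fin (m + 2)) (c : ℝ) {u : M → ℝ} (hu : S.Smooth u) (x : M) :
    S.D i (fun y => c * u y) x = c * S.D i u x := by
  rw [S.D_mul i _ _ (S.smooth_const c) hu, S.D_const]; ring

theorem D_neg (i : Fin (m + 2)) {u : M → ℝ} (hu : S.Smooth u) (x : M) :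
    S.D i (fun y => -u y) x = -S.D i u x := by
  simpa using S.D_smul i (-1) hu x

theorem D_sub (i : Fin (m + 2)) {u v : M → ℝ} (hu : S.Smooth u) (hv : S.Smooth v) (x : M) :
    S.D i (fun y => u y - v y) x = S.D i u x - S.D i v x := by
  simp only [sub_eq_add_neg]
  rw [S.D_add i _ _ hu (S.smooth_neg hv), S.D_neg i hv]

theorem D_sum {ι : Type} (i : Fin (m + 2)) (s : Finset ι) (u : ι → M → ℝ)
    (hu : ∀ k, S.Smooth (u k)) (x : M) :
    S.D i (fun y => ∑ k ∈ s, u k y) x = ∑ k ∈ s, S.D i (u k) x := by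
  classical
  induction s using Finset.induction with
  | empty => simpa using S.D_const i 0 x
  | insert a t ha ih =>
    simp only [Finset.sum_insert ha]
    rw [S.D_add i _ _ (hu a) (S.smooth_sum t u hu), ih]

theorem smooth_sff (i j : Fin (m + 2)) : S.Smooth (S.sff i j) := S.smooth_D i _ (S.smooth_nrm j)

theorem smooth_proj (j k : Fin (m + 2)) : S.Smooth (S.proj j k) :=
  S.smooth_sub (S.smooth_sub (S.smooth_const _) (S.smooth_mul _ _ (S.smooth_pos j) (S.smooth_pos k)))
    (S.smooth_mul _ _ (S.smooth_nrm j) (S.smooth_nrm k))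

theorem D_pos' (i j : Fin (m + 2)) (x : M) : S.D i (fun y => S.pos y j) x = S.proj i j x :=
  S.D_pos i j x

theorem proj_comm (j k : Fin (m + 2)) (x : M) : S.proj j k x = S.proj k j x := by
  simp only [proj, eq_comm]; ring

theorem sum_proj_mul (j : Fin (m + 2)) (v : Fin (m + 2) → ℝ) (x : M) :
    ∑ k, S.proj j k x * v k = v j - S.pos x j * ∑ k, S.pos x k * v k
      - S.nrm x j * ∑ k, S.nrm x k * v k := by
  simp only [proj, sub_mul, Finset.sum_sub_distrib, Finset.mul_sum]
  simp [ite_mul, mul_assoc]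

theorem sum_proj_self (x : M) : ∑ i, S.proj i i x = m := by
  simp only [proj, if_pos, Finset.sum_sub_distrib, S.pos_pos, S.nrm_nrm]
  simp
  ring

theorem nrm_pos (x : M) : ∑ i, S.nrm x i * S.pos x i = 0 := by
  simpa [mul_comm] using S.pos_nrm x

theorem sum_proj_pos (j : Fin (m + 2)) (x : M) : ∑ k, S.proj j k x * S.pos x k = 0 := by
  rw [sum_proj_mul, S.pos_pos, S.nrm_pos]; ring

theorem sum_proj_nrm (j : Fin (m + 2)) (x : M) : ∑ k, S.proj j k x * S.nrm x k = 0 := by
  rw [sum_proj_mul, S.nrm_nrm, S.pos_nrm]; ring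

theorem pos_sff (j : Fin (m + 2)) (x : M) : ∑ i, S.pos x i * S.sff i j x = 0 :=
  S.pos_D _ (S.smooth_nrm j) x

theorem nrm_sff (j : Fin (m + 2)) (x : M) : ∑ i, S.nrm x i * S.sff i j x = 0 :=
  S.nrm_D _ (S.smooth_nrm j) x

theorem sff_pos (i : Fin (m + 2)) (x : M) : ∑ j, S.sff i j x * S.pos x j = 0 := by
  have e : (fun y => ∑ j, S.nrm y j * S.pos y j) = fun _ => (0 : ℝ) := funext S.nrm_pos
  have h := congrFun (congrArg (S.D i) e) x
  rw [S.D_const, S.D_sum i _ _ fun j => S.smooth_mul _ _ (S.smooth_nrm j) (S.smooth_pos j)] at h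
  simp only [S.D_mul i _ _ (S.smooth_nrm _) (S.smooth_pos _), Finset.sum_add_distrib,
    S.D_pos'] at h
  have h2 : ∑ j, S.nrm x j * S.proj i j x = 0 := by simpa [mul_comm] using S.sum_proj_nrm i x
  rw [h2, add_zero] at h
  exact h

theorem sff_nrm (i : Fin (m + 2)) (x : M) : ∑ j, S.sff i j x * S.nrm x j = 0 := by
  have e : (fun y => ∑ j, S.nrm y j * S.nrm y j) = fun _ => (1 : ℝ) := funext S.nrm_nrm
  have h := congrFun (congrArg (S.D i) e) x
  rw [S.D_const, S.D_sum i _ _ fun j => S.smooth_mul _ _ (S.smooth_nrm j) (S.smooth_nrm j)] at h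
  simp only [S.D_mul i _ _ (S.smooth_nrm _) (S.smooth_nrm _), Finset.sum_add_distrib] at h
  have h2 : ∑ j, S.nrm x j * S.D i (fun y => S.nrm y j) x
      = ∑ j, S.D i (fun y => S.nrm y j) x * S.nrm x j := by simp [mul_comm]
  unfold sff
  linarith

theorem D_proj (i j k : Fin (m + 2)) (x : M) : S.D i (S.proj j k) x =
    -(S.proj i j x * S.pos x k) - S.pos x j * S.proj i k x
      - S.sff i j x * S.nrm x k - S.nrm x j * S.sff i k x := by
  unfold proj
  rw [S.D_sub i (S.smooth_sub (S.smooth_const _) (S.smooth_mul _ _ (S.smooth_pos j) (S.smooth_pos k)))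
      (S.smooth_mul _ _ (S.smooth_nrm j) (S.smooth_nrm k)),
    S.D_sub i (S.smooth_const _) (S.smooth_mul _ _ (S.smooth_pos j) (S.smooth_pos k)),
    S.D_const, S.D_mul i _ _ (S.smooth_pos j) (S.smooth_pos k),
    S.D_mul i _ _ (S.smooth_nrm j) (S.smooth_nrm k), S.D_pos', S.D_pos']
  simp only [proj, sff]; ring

theorem D_comm' (i j : Fin (m + 2)) {u : M → ℝ} (hu : S.Smooth u) (x : M) :
    S.D i (S.D j u) x - S.D j (S.D i u) x
      = ∑ k, (S.D i (S.proj j k) x - S.D j (S.proj i k) x) * S.D k u x :=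
  S.D_comm i j u hu x

theorem sff_comm (i j : Fin (m + 2)) (x : M) : S.sff i j x = S.sff j i x := by
  have h : ∀ l, S.D i (S.proj j l) x - S.D j (S.proj i l) x
      = ∑ k, (S.D i (S.proj j k) x - S.D j (S.proj i k) x) * S.proj k l x := by
    intro l
    have e : ∀ a, S.D a (fun y => S.pos y l) = S.proj a l := fun a => funext (S.D_pos' a l)
    have h := S.D_comm' i j (S.smooth_pos l) x
    simpa only [e] using h
  have h0 : ∑ l, (S.D i (S.proj j l) x - S.D j (S.proj i l) x) * S.nrm x l = 0 := by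
    rw [Finset.sum_congr rfl fun l _ => by rw [h l, Finset.sum_mul], Finset.sum_comm]
    refine Finset.sum_eq_zero fun k _ => ?_
    simp only [mul_assoc, ← Finset.mul_sum, S.sum_proj_nrm, mul_zero]
  simp only [D_proj, sub_mul, neg_mul, Finset.sum_sub_distrib, Finset.sum_neg_distrib, mul_assoc,
    ← Finset.mul_sum, S.sum_proj_nrm, S.sff_nrm, S.pos_nrm, S.nrm_nrm, mul_zero, mul_one] at h0
  linarith

theorem sff_comm' (i j : Fin (m + 2)) : S.sff i j = S.sff j i := funext (S.sff_comm i j)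

theorem comm_formula (i j : Fin (m + 2)) {u : M → ℝ} (hu : S.Smooth u) (x : M) :
    S.D i (S.D j u) x = S.D j (S.D i u) x - S.pos x j * S.D i u x + S.pos x i * S.D j u x
      - S.nrm x j * (∑ k, S.sff i k x * S.D k u x)
      + S.nrm x i * ∑ k, S.sff j k x * S.D k u x := by
  have h := S.D_comm' i j hu x
  have hT : ∀ a, ∑ k, S.proj a k x * S.D k u x = S.D a u x := fun a => by
    rw [sum_proj_mul, S.pos_D u hu, S.nrm_D u hu]; ring
  simp only [D_proj, sub_mul, neg_mul, Finset.sum_sub_distrib, Finset.sum_neg_distrib, mul_assoc,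
    ← Finset.mul_sum, hT, S.pos_D u hu, S.nrm_D u hu, mul_zero] at h
  linarith

theorem lap_posC (j : Fin (m + 2)) (x : M) :
    S.lap (fun y => S.pos y j) x = -(m : ℝ) * S.pos x j := by
  have e : ∀ i, S.D i (fun y => S.pos y j) = S.proj i j := fun i => funext (S.D_pos' i j)
  have h1 : ∑ i, S.pos x i * S.proj i j x = 0 := by
    simpa [S.proj_comm _ j, mul_comm] using S.sum_proj_pos j x
  simp only [lap, e, D_proj, Finset.sum_sub_distrib, Finset.sum_neg_distrib, ← Finset.sum_mul,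
    S.sum_proj_self, h1, S.nrm_sff]
  have : ∑ i, S.sff i i x = 0 := S.minimal x
  rw [this]; ring

theorem sffSq_eq (x : M) : S.sffSq x = ∑ i, ∑ k, S.sff i k x * S.sff k i x :=
  Finset.sum_congr rfl fun i _ => Finset.sum_congr rfl fun k _ => by
    rw [S.sff_comm k i, sq]

theorem lap_nrmC (j : Fin (m + 2)) (x : M) :
    S.lap (fun y => S.nrm y j) x = -S.sffSq x * S.nrm x j := by
  have e : ∀ i, S.D i (fun y => S.nrm y j) = S.sff j i := fun i => S.sff_comm' i j
  simp only [lap, e]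
  have h : ∀ i, S.D i (S.sff j i) x = S.D j (S.sff i i) x - S.pos x j * S.sff i i x
      + S.pos x i * S.sff j i x - S.nrm x j * (∑ k, S.sff i k x * S.sff k i x)
      + S.nrm x i * ∑ k, S.sff j k x * S.sff k i x := fun i =>
    S.comm_formula i j (S.smooth_nrm i) x
  have h0 : ∑ i, S.D j (S.sff i i) x = 0 := by
    rw [← S.D_sum j _ _ fun i => S.smooth_sff i i]
    have e : (fun y => ∑ i, S.sff i i y) = fun _ => (0 : ℝ) := funext S.minimal
    rw [e, S.D_const]
  have hm : ∑ i, S.sff i i x = 0 := S.minimal x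
  have h2 : ∑ i, S.pos x i * S.sff j i x = 0 := by simpa [mul_comm] using S.sff_pos j x
  have h3 : ∑ i, S.nrm x i * ∑ k, S.sff j k x * S.sff k i x = 0 := by
    simp only [Finset.mul_sum]
    rw [Finset.sum_comm]
    refine Finset.sum_eq_zero fun k _ => ?_
    simp only [mul_left_comm (S.nrm x _), ← Finset.mul_sum, S.sff_comm k, S.nrm_sff, mul_zero]
  simp only [h, Finset.sum_add_distrib, Finset.sum_sub_distrib, ← Finset.mul_sum, h0, hm, h2, h3,
    ← S.sffSq_eq]
  ring

/-- `B²`. -/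
def sff2 (i k : Fin (m + 2)) (x : M) : ℝ := ∑ l, S.sff i l x * S.sff l k x

theorem smooth_sff2 (i k : Fin (m + 2)) : S.Smooth (S.sff2 i k) :=
  S.smooth_sum _ _ fun l => S.smooth_mul _ _ (S.smooth_sff i l) (S.smooth_sff l k)

theorem sff2_comm (i k : Fin (m + 2)) (x : M) : S.sff2 i k x = S.sff2 k i x :=
  Finset.sum_congr rfl fun l _ => by rw [S.sff_comm i l, S.sff_comm l k]; ring

theorem pos_sff2 (k : Fin (m + 2)) (x : M) : ∑ i, S.pos x i * S.sff2 i k x = 0 := by
  simp only [sff2, Finset.mul_sum]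
  rw [Finset.sum_comm]
  refine Finset.sum_eq_zero fun l _ => ?_
  simp only [← mul_assoc, ← Finset.sum_mul, S.pos_sff, zero_mul]

theorem nrm_sff2 (k : Fin (m + 2)) (x : M) : ∑ i, S.nrm x i * S.sff2 i k x = 0 := by
  simp only [sff2, Finset.mul_sum]
  rw [Finset.sum_comm]
  refine Finset.sum_eq_zero fun l _ => ?_
  simp only [← mul_assoc, ← Finset.sum_mul, S.nrm_sff, zero_mul]

theorem sum_proj_sff (j k : Fin (m + 2)) (x : M) : ∑ i, S.proj i j x * S.sff i k x = S.sff j k x := by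
  simp only [S.proj_comm _ j]
  rw [sum_proj_mul, S.pos_sff, S.nrm_sff]; ring

/-- `tr B⁴`. -/
def sff4 (x : M) : ℝ := ∑ i, ∑ k, S.sff2 i k x ^ 2

theorem pos_D_sff (i k : Fin (m + 2)) (x : M) :
    ∑ j, S.pos x j * S.D i (S.sff j k) x = -S.sff i k x := by
  have e : (fun y => ∑ j, S.pos y j * S.sff j k y) = fun _ => (0 : ℝ) := funext (S.pos_sff k)
  have h := congrFun (congrArg (S.D i) e) x
  rw [S.D_const, S.D_sum i _ _ fun j => S.smooth_mul _ _ (S.smooth_pos j) (S.smooth_sff j k)] at h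
  simp only [S.D_mul i _ _ (S.smooth_pos _) (S.smooth_sff _ _), Finset.sum_add_distrib,
    S.D_pos', S.proj_comm i, S.sum_proj_sff] at h
  linarith

theorem nrm_D_sff (i k : Fin (m + 2)) (x : M) :
    ∑ j, S.nrm x j * S.D i (S.sff j k) x = -S.sff2 i k x := by
  have e : (fun y => ∑ j, S.nrm y j * S.sff j k y) = fun _ => (0 : ℝ) := funext (S.nrm_sff k)
  have h := congrFun (congrArg (S.D i) e) x
  rw [S.D_const, S.D_sum i _ _ fun j => S.smooth_mul _ _ (S.smooth_nrm j) (S.smooth_sff j k)] at h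
  simp only [S.D_mul i _ _ (S.smooth_nrm _) (S.smooth_sff _ _), Finset.sum_add_distrib] at h
  have e2 : ∑ j, S.D i (fun y => S.nrm y j) x * S.sff j k x = S.sff2 i k x := rfl
  rw [e2] at h
  linarith

theorem lap_sff (j k : Fin (m + 2)) (x : M) :
    S.lap (S.sff j k) x = S.D j (fun y => -S.sffSq y * S.nrm y k) x
      + ∑ i, (-(S.pos x j * S.D i (S.sff i k) x) + S.pos x i * S.D j (S.sff i k) x
        - S.nrm x j * (∑ l, S.sff i l x * S.D l (S.sff i k) x)
        + S.nrm x i * ∑ l, S.sff j l x * S.D l (S.sff i k) x)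
      + ∑ i, (-(S.proj i j x * S.sff i k x) - S.pos x j * S.D i (S.sff i k) x
        + S.proj i i x * S.sff j k x + S.pos x i * S.D i (S.sff j k) x
        - S.sff i j x * S.sff2 i k x - S.nrm x j * S.D i (S.sff2 i k) x
        + S.sff i i x * S.sff2 j k x + S.nrm x i * S.D i (S.sff2 j k) x) := by
  have e1 : ∀ i, S.D i (S.sff j k) = fun y => S.D j (S.sff i k) y - S.pos y j * S.sff i k y
      + S.pos y i * S.sff j k y - S.nrm y j * S.sff2 i k y + S.nrm y i * S.sff2 j k y :=
    fun i => funext fun y => S.comm_formula i j (S.smooth_nrm k) y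
  have s1 : ∀ i, S.Smooth (fun y => S.D j (S.sff i k) y) := fun i => S.smooth_D j _ (S.smooth_sff i k)
  have p : ∀ i (a : Fin (m + 2)), S.Smooth fun y => S.pos y a * S.sff i k y := fun i a =>
    S.smooth_mul _ _ (S.smooth_pos a) (S.smooth_sff i k)
  have q : ∀ i (a : Fin (m + 2)), S.Smooth fun y => S.nrm y a * S.sff2 i k y := fun i a =>
    S.smooth_mul _ _ (S.smooth_nrm a) (S.smooth_sff2 i k)
  have e2 : ∀ i, S.D i (S.D i (S.sff j k)) x = S.D i (S.D j (S.sff i k)) x
      + (-(S.proj i j x * S.sff i k x) - S.pos x j * S.D i (S.sff i k) x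
        + S.proj i i x * S.sff j k x + S.pos x i * S.D i (S.sff j k) x
        - S.sff i j x * S.sff2 i k x - S.nrm x j * S.D i (S.sff2 i k) x
        + S.sff i i x * S.sff2 j k x + S.nrm x i * S.D i (S.sff2 j k) x) := by
    intro i
    conv_lhs => rw [e1 i]
    rw [S.D_add i _ _ (S.smooth_sub (S.smooth_add _ _ (S.smooth_sub (s1 i) (p i j)) (p j i)) (q i j))
        (q j i), S.D_sub i (S.smooth_add _ _ (S.smooth_sub (s1 i) (p i j)) (p j i)) (q i j),
      S.D_add i _ _ (S.smooth_sub (s1 i) (p i j)) (p j i), S.D_sub i (s1 i) (p i j),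
      S.D_mul i _ _ (S.smooth_pos _) (S.smooth_sff _ _),
      S.D_mul i _ _ (S.smooth_pos _) (S.smooth_sff _ _),
      S.D_mul i _ _ (S.smooth_nrm _) (S.smooth_sff2 _ _),
      S.D_mul i _ _ (S.smooth_nrm _) (S.smooth_sff2 _ _), S.D_pos', S.D_pos']
    simp only [sff]
    ring
  have e3 : ∀ i, S.D i (S.D j (S.sff i k)) x = S.D j (S.D i (S.sff i k)) x
      + (-(S.pos x j * S.D i (S.sff i k) x) + S.pos x i * S.D j (S.sff i k) x
        - S.nrm x j * (∑ l, S.sff i l x * S.D l (S.sff i k) x)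
        + S.nrm x i * ∑ l, S.sff j l x * S.D l (S.sff i k) x) := fun i => by
    rw [S.comm_formula i j (S.smooth_sff i k) x]; ring
  have e4 : ∑ i, S.D j (S.D i (S.sff i k)) x = S.D j (fun y => -S.sffSq y * S.nrm y k) x := by
    rw [← S.D_sum j _ _ fun i => S.smooth_D i _ (S.smooth_sff i k)]
    congr 1
    funext y
    exact S.lap_nrmC k y
  simp only [lap, e2, e3, Finset.sum_add_distrib, e4]

theorem smooth_sffSq : S.Smooth S.sffSq :=
  S.smooth_sum _ (fun i y => ∑ j, S.sff i j y ^ 2) fun i =>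
    S.smooth_sum _ (fun j y => S.sff i j y ^ 2) fun j => by
      simpa only [sq] using S.smooth_mul _ _ (S.smooth_sff i j) (S.smooth_sff i j)

theorem sum_sff_mul_lap (x : M) :
    ∑ j, ∑ k, S.sff j k x * S.lap (S.sff j k) x
      = ((m : ℝ) - 2) * S.sffSq x - S.sffSq x ^ 2 - 2 * S.sff4 x := by
  have A1 : ∀ k, ∑ j, S.sff j k x * S.pos x j = 0 := fun k => by
    simpa [mul_comm] using S.pos_sff k x
  have A2 : ∀ k, ∑ j, S.sff j k x * S.nrm x j = 0 := fun k => by
    simpa [mul_comm] using S.nrm_sff k x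
  have T1 : ∑ j, ∑ k, S.sff j k x * S.D j (fun y => -S.sffSq y * S.nrm y k) x
      = -S.sffSq x ^ 2 := by
    simp only [S.D_mul _ _ _ (S.smooth_neg S.smooth_sffSq) (S.smooth_nrm _),
      S.D_neg _ S.smooth_sffSq, mul_add, Finset.sum_add_distrib]
    have z : ∑ j, ∑ k, S.sff j k x * (-S.D j S.sffSq x * S.nrm x k) = 0 :=
      Finset.sum_eq_zero fun j _ => by
        simp only [mul_left_comm (S.sff j _ x), ← Finset.mul_sum, S.sff_nrm, mul_zero]
    have w : ∑ j, ∑ k, S.sff j k x * (-S.sffSq x * S.sff j k x) = -S.sffSq x * S.sffSq x := by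
      simp only [mul_left_comm (S.sff _ _ x), ← Finset.mul_sum, ← sq]
      rfl
    rw [z, zero_add]
    exact w.trans (by ring)
  have T2 : ∑ j, ∑ k, S.sff j k x *
      ∑ i, (-(S.pos x j * S.D i (S.sff i k) x) + S.pos x i * S.D j (S.sff i k) x
        - S.nrm x j * (∑ l, S.sff i l x * S.D l (S.sff i k) x)
        + S.nrm x i * ∑ l, S.sff j l x * S.D l (S.sff i k) x)
      = -S.sffSq x - S.sff4 x := by
    have i1 : ∀ j k, ∑ i, S.pos x i * S.D j (S.sff i k) x = -S.sff j k x := fun j k =>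
      S.pos_D_sff j k x
    have i2 : ∀ j k, ∑ i, S.nrm x i * (∑ l, S.sff j l x * S.D l (S.sff i k) x)
        = -∑ l, S.sff j l x * S.sff2 l k x := fun j k => by
      simp only [Finset.mul_sum]
      rw [Finset.sum_comm]
      simp only [mul_left_comm (S.nrm x _), ← Finset.mul_sum, S.nrm_D_sff, mul_neg,
        Finset.sum_neg_distrib]
    have j1 : ∀ g : Fin (m + 2) → ℝ, ∑ j, ∑ k, S.sff j k x * (S.pos x j * g k) = 0 := fun g => by
      rw [Finset.sum_comm]
      simp only [← mul_assoc, ← Finset.sum_mul, A1, zero_mul, Finset.sum_const_zero]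
    have j2 : ∀ g : Fin (m + 2) → ℝ, ∑ j, ∑ k, S.sff j k x * (S.nrm x j * g k) = 0 := fun g => by
      rw [Finset.sum_comm]
      simp only [← mul_assoc, ← Finset.sum_mul, A2, zero_mul, Finset.sum_const_zero]
    have q4 : ∑ j, ∑ k, S.sff j k x * (∑ l, S.sff j l x * S.sff2 l k x) = S.sff4 x := by
      simp only [Finset.mul_sum]
      rw [Finset.sum_comm, sff4, Finset.sum_comm (f := fun i k => S.sff2 i k x ^ 2)]
      refine Finset.sum_congr rfl fun k _ => ?_
      rw [Finset.sum_comm]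
      refine Finset.sum_congr rfl fun l _ => ?_
      simp only [← mul_assoc, ← Finset.sum_mul]
      have : ∑ j, S.sff j k x * S.sff j l x = S.sff2 l k x :=
        Finset.sum_congr rfl fun j _ => by rw [S.sff_comm l j]; ring
      rw [this]; ring
    simp only [Finset.sum_add_distrib, Finset.sum_sub_distrib, Finset.sum_neg_distrib, i1, i2,
      ← Finset.mul_sum, mul_add, mul_sub, mul_neg, j1, j2, q4]
    simp only [sffSq, sq]
    ring
  have T3 : ∑ j, ∑ k, S.sff j k x *
      ∑ i, (-(S.proj i j x * S.sff i k x) - S.pos x j * S.D i (S.sff i k) x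
        + S.proj i i x * S.sff j k x + S.pos x i * S.D i (S.sff j k) x
        - S.sff i j x * S.sff2 i k x - S.nrm x j * S.D i (S.sff2 i k) x
        + S.sff i i x * S.sff2 j k x + S.nrm x i * S.D i (S.sff2 j k) x)
      = ((m : ℝ) - 1) * S.sffSq x - S.sff4 x := by
    have j1 : ∀ g : Fin (m + 2) → ℝ, ∑ j, ∑ k, S.sff j k x * (S.pos x j * g k) = 0 := fun g => by
      rw [Finset.sum_comm]
      simp only [← mul_assoc, ← Finset.sum_mul, A1, zero_mul, Finset.sum_const_zero]
    have j2 : ∀ g : Fin (m + 2) → ℝ, ∑ j, ∑ k, S.sff j k x * (S.nrm x j * g k) = 0 := fun g => by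
      rw [Finset.sum_comm]
      simp only [← mul_assoc, ← Finset.sum_mul, A2, zero_mul, Finset.sum_const_zero]
    have q4 : ∑ j, ∑ k, S.sff j k x * (∑ i, S.sff i j x * S.sff2 i k x) = S.sff4 x := by
      simp only [Finset.mul_sum]
      rw [Finset.sum_comm, sff4, Finset.sum_comm (f := fun i k => S.sff2 i k x ^ 2)]
      refine Finset.sum_congr rfl fun k _ => ?_
      rw [Finset.sum_comm]
      refine Finset.sum_congr rfl fun l _ => ?_
      simp only [← mul_assoc, ← Finset.sum_mul]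
      have : ∑ j, S.sff j k x * S.sff l j x = S.sff2 l k x :=
        Finset.sum_congr rfl fun j _ => mul_comm _ _
      rw [this]; ring
    have mt : ∑ i, S.sff i i x = 0 := S.minimal x
    simp only [Finset.sum_add_distrib, Finset.sum_sub_distrib, Finset.sum_neg_distrib,
      S.sum_proj_sff, S.pos_D _ (S.smooth_sff _ _), S.nrm_D _ (S.smooth_sff2 _ _),
      ← Finset.sum_mul, S.sum_proj_self, mt, zero_mul, add_zero,
      ← Finset.mul_sum, mul_add, mul_sub, mul_neg, j1, j2, q4]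
    simp only [mul_left_comm _ (m : ℝ), ← Finset.mul_sum, sffSq, sq]
    ring
  have split : ∀ A B C : Fin (m + 2) → Fin (m + 2) → ℝ,
      ∑ j, ∑ k, S.sff j k x * (A j k + B j k + C j k)
        = (∑ j, ∑ k, S.sff j k x * A j k) + (∑ j, ∑ k, S.sff j k x * B j k)
          + ∑ j, ∑ k, S.sff j k x * C j k := fun A B C => by
    simp only [mul_add, Finset.sum_add_distrib]
  simp only [lap_sff]
  refine (split _ _ _).trans ?_
  rw [T1, T2, T3]
  ring

theorem normal_part_le (i : Fin (m + 2)) (x : M) :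
    2 * (∑ k, S.sff i k x ^ 2) + 2 * (∑ k, S.sff2 i k x ^ 2)
      ≤ ∑ j, ∑ k, S.D i (S.sff j k) x ^ 2 := by
  set M' : Fin (m + 2) → Fin (m + 2) → ℝ := fun j k => S.D i (S.sff j k) x with hM
  have hsym : ∀ j k, M' j k = M' k j := fun j k => by simp only [hM, S.sff_comm' j k]
  have hP : ∀ k, ∑ j, S.pos x j * M' j k = -S.sff i k x := fun k => S.pos_D_sff i k x
  have hN : ∀ k, ∑ j, S.nrm x j * M' j k = -S.sff2 i k x := fun k => S.nrm_D_sff i k x
  set P := S.pos x with hPd
  set N := S.nrm x with hNd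
  set b : Fin (m + 2) → ℝ := fun k => S.sff i k x with hb
  set c : Fin (m + 2) → ℝ := fun k => S.sff2 i k x with hc
  have bP : ∑ k, b k * P k = 0 := S.sff_pos i x
  have bN : ∑ k, b k * N k = 0 := S.sff_nrm i x
  have cP : ∑ k, c k * P k = 0 := by
    simpa [hc, mul_comm, S.sff2_comm i] using S.pos_sff2 i x
  have cN : ∑ k, c k * N k = 0 := by
    simpa [hc, mul_comm, S.sff2_comm i] using S.nrm_sff2 i x
  have PP : ∑ k, P k * P k = 1 := S.pos_pos x
  have NN : ∑ k, N k * N k = 1 := S.nrm_nrm x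
  have PN : ∑ k, P k * N k = 0 := S.pos_nrm x
  have key : ∑ j, ∑ k, (M' j k + P j * b k + b j * P k + N j * c k + c j * N k) ^ 2
      = (∑ j, ∑ k, M' j k ^ 2) - 2 * (∑ k, b k ^ 2) - 2 * (∑ k, c k ^ 2) := by
    have m1 : ∑ j, ∑ k, M' j k * (P j * b k) = -∑ k, b k ^ 2 := by
      rw [Finset.sum_comm, ← Finset.sum_neg_distrib]
      refine Finset.sum_congr rfl fun k _ => ?_
      simp only [show ∀ j, M' j k * (P j * b k) = b k * (P j * M' j k) from fun j => by ring,
        ← Finset.mul_sum, hP]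
      simp only [hb]; ring
    have m2 : ∑ j, ∑ k, M' j k * (b j * P k) = -∑ k, b k ^ 2 := by
      rw [← m1, Finset.sum_comm]
      exact Finset.sum_congr rfl fun k _ => Finset.sum_congr rfl fun j _ => by
        rw [hsym j k]; ring
    have m3 : ∑ j, ∑ k, M' j k * (N j * c k) = -∑ k, c k ^ 2 := by
      rw [Finset.sum_comm, ← Finset.sum_neg_distrib]
      refine Finset.sum_congr rfl fun k _ => ?_
      simp only [show ∀ j, M' j k * (N j * c k) = c k * (N j * M' j k) from fun j => by ring,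
        ← Finset.mul_sum, hN]
      simp only [hc]; ring
    have m4 : ∑ j, ∑ k, M' j k * (c j * N k) = -∑ k, c k ^ 2 := by
      rw [← m3, Finset.sum_comm]
      exact Finset.sum_congr rfl fun k _ => Finset.sum_congr rfl fun j _ => by
        rw [hsym j k]; ring
    have bil : ∀ u v w z : Fin (m + 2) → ℝ,
        ∑ j, ∑ k, (u j * v k) * (w j * z k) = (∑ j, u j * w j) * ∑ k, v k * z k := by
      intro u v w z
      rw [Finset.sum_mul_sum]
      exact Finset.sum_congr rfl fun j _ => Finset.sum_congr rfl fun k _ => by ring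
    have expand : ∀ j k, (M' j k + P j * b k + b j * P k + N j * c k + c j * N k) ^ 2
        = M' j k ^ 2 + 2 * (M' j k * (P j * b k)) + 2 * (M' j k * (b j * P k))
          + 2 * (M' j k * (N j * c k)) + 2 * (M' j k * (c j * N k))
          + (P j * b k) * (P j * b k) + (b j * P k) * (b j * P k)
          + (N j * c k) * (N j * c k) + (c j * N k) * (c j * N k)
          + 2 * ((P j * b k) * (b j * P k)) + 2 * ((P j * b k) * (N j * c k))
          + 2 * ((P j * b k) * (c j * N k)) + 2 * ((b j * P k) * (N j * c k))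
          + 2 * ((b j * P k) * (c j * N k)) + 2 * ((N j * c k) * (c j * N k)) :=
      fun j k => by ring
    simp only [expand, Finset.sum_add_distrib, ← Finset.mul_sum, m1, m2, m3, m4, bil,
      bP, bN, cP, cN, PP, NN, PN]
    simp only [← sq]
    ring
  have : 0 ≤ ∑ j, ∑ k, (M' j k + P j * b k + b j * P k + N j * c k + c j * N k) ^ 2 :=
    Finset.sum_nonneg fun j _ => Finset.sum_nonneg fun k _ => sq_nonneg _
  linarith

theorem lap_add {u v : M → ℝ} (hu : S.Smooth u) (hv : S.Smooth v) (x : M) :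
    S.lap (fun y => u y + v y) x = S.lap u x + S.lap v x := by
  have e : ∀ i, S.D i (fun y => u y + v y) = fun y => S.D i u y + S.D i v y :=
    fun i => funext (S.D_add i u v hu hv)
  simp only [lap, e, S.D_add _ _ _ (S.smooth_D _ u hu) (S.smooth_D _ v hv), Finset.sum_add_distrib]

theorem lap_sum {ι : Type} (s : Finset ι) (u : ι → M → ℝ) (hu : ∀ k, S.Smooth (u k)) (x : M) :
    S.lap (fun y => ∑ k ∈ s, u k y) x = ∑ k ∈ s, S.lap (u k) x := by
  have e : ∀ i, S.D i (fun y => ∑ k ∈ s, u k y) = fun y => ∑ k ∈ s, S.D i (u k) y :=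
    fun i => funext (S.D_sum i s u hu)
  simp only [lap, e, S.D_sum _ s _ (fun k => S.smooth_D _ _ (hu k))]
  exact Finset.sum_comm

theorem lap_mul {u v : M → ℝ} (hu : S.Smooth u) (hv : S.Smooth v) (x : M) :
    S.lap (fun y => u y * v y) x = S.lap u x * v x + u x * S.lap v x + 2 * S.gdot u v x := by
  have e : ∀ i, S.D i (fun y => u y * v y) = fun y => S.D i u y * v y + u y * S.D i v y :=
    fun i => funext (S.D_mul i u v hu hv)
  simp only [lap, gdot, e, S.D_add _ _ _ (S.smooth_mul _ _ (S.smooth_D _ u hu) hv)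
    (S.smooth_mul _ _ hu (S.smooth_D _ v hv)), S.D_mul _ _ _ (S.smooth_D _ u hu) hv,
    S.D_mul _ _ _ hu (S.smooth_D _ v hv), Finset.sum_add_distrib, ← Finset.sum_mul,
    ← Finset.mul_sum]
  ring

/-- Simons' inequality. -/
theorem simons (x : M) : 2 * S.sffSq x * ((m : ℝ) - S.sffSq x) ≤ S.lap S.sffSq x := by
  have e : S.sffSq = fun y => ∑ j, ∑ k, S.sff j k y * S.sff j k y :=
    funext fun y => by simp only [sffSq, sq]
  have h1 : S.lap S.sffSq x
      = ∑ j, ∑ k, (2 * (S.sff j k x * S.lap (S.sff j k) x)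
          + 2 * ∑ i, S.D i (S.sff j k) x ^ 2) := by
    conv_lhs => rw [e]
    rw [S.lap_sum _ (fun j y => ∑ k, S.sff j k y * S.sff j k y)
      fun j => S.smooth_sum _ _ fun k => S.smooth_mul _ _ (S.smooth_sff j k) (S.smooth_sff j k)]
    refine Finset.sum_congr rfl fun j _ => ?_
    rw [S.lap_sum _ (fun k y => S.sff j k y * S.sff j k y)
      fun k => S.smooth_mul _ _ (S.smooth_sff j k) (S.smooth_sff j k)]
    refine Finset.sum_congr rfl fun k _ => ?_
    rw [S.lap_mul (S.smooth_sff j k) (S.smooth_sff j k)]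
    simp only [gdot, sq]; ring
  have h2 : 2 * S.sffSq x + 2 * S.sff4 x ≤ ∑ i, ∑ j, ∑ k, S.D i (S.sff j k) x ^ 2 := by
    simp only [sffSq, sff4, Finset.mul_sum, ← Finset.sum_add_distrib]
    refine Finset.sum_le_sum fun i _ => ?_
    simpa only [Finset.mul_sum, Finset.sum_add_distrib] using S.normal_part_le i x
  have h3 : ∑ j, ∑ k, ∑ i, S.D i (S.sff j k) x ^ 2 = ∑ i, ∑ j, ∑ k, S.D i (S.sff j k) x ^ 2 := by
    rw [Finset.sum_comm (s := (Finset.univ : Finset (Fin (m + 2))))
      (f := fun i j => ∑ k, S.D i (S.sff j k) x ^ 2)]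
    exact Finset.sum_congr rfl fun j _ => Finset.sum_comm
  rw [h1]
  simp only [Finset.sum_add_distrib, ← Finset.mul_sum, h3, S.sum_sff_mul_lap]
  nlinarith [h2]

theorem lap_comp {u : M → ℝ} (Φ : ℝ → ℝ) (hu : S.Smooth u) (hΦ : ContDiff ℝ ∞ Φ) (x : M) :
    S.lap (fun y => Φ (u y)) x
      = deriv Φ (u x) * S.lap u x + deriv (deriv Φ) (u x) * S.gdot u u x := by
  have hd : ContDiff ℝ ∞ (deriv Φ) := (contDiff_infty_iff_deriv.1 hΦ).2
  have e : ∀ i, S.D i (fun y => Φ (u y)) = fun y => deriv Φ (u y) * S.D i u y :=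
    fun i => funext (S.D_comp i u Φ hu hΦ)
  simp only [lap, gdot, e, S.D_mul _ _ _ (S.smooth_comp u _ hu hd) (S.smooth_D _ u hu),
    S.D_comp _ u _ hu hd, Finset.sum_add_distrib, Finset.mul_sum]
  rw [add_comm]
  congr 1
  exact Finset.sum_congr rfl fun i _ => by ring

theorem smooth_posL (v : Fin (m + 2) → ℝ) : S.Smooth (S.posL v) :=
  S.smooth_sum _ (fun i y => S.pos y i * v i)
    fun i => S.smooth_mul _ _ (S.smooth_pos i) (S.smooth_const _)

theorem smooth_nrmL (v : Fin (m + 2) → ℝ) : S.Smooth (S.nrmL v) :=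
  S.smooth_sum _ (fun i y => S.nrm y i * v i)
    fun i => S.smooth_mul _ _ (S.smooth_nrm i) (S.smooth_const _)

theorem D_posL (i : Fin (m + 2)) (v : Fin (m + 2) → ℝ) (x : M) :
    S.D i (S.posL v) x = ∑ j, S.proj i j x * v j := by
  unfold posL
  rw [S.D_sum i _ _ fun j => S.smooth_mul _ _ (S.smooth_pos j) (S.smooth_const _)]
  refine Finset.sum_congr rfl fun j _ => ?_
  rw [S.D_mul i _ _ (S.smooth_pos j) (S.smooth_const _), S.D_const, S.D_pos']
  ring

theorem D_nrmL (i : Fin (m + 2)) (v : Fin (m + 2) → ℝ) (x : M) :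
    S.D i (S.nrmL v) x = ∑ j, S.sff i j x * v j := by
  unfold nrmL
  rw [S.D_sum i _ _ fun j => S.smooth_mul _ _ (S.smooth_nrm j) (S.smooth_const _)]
  refine Finset.sum_congr rfl fun j _ => ?_
  rw [S.D_mul i _ _ (S.smooth_nrm j) (S.smooth_const _), S.D_const]
  simp only [sff]; ring

theorem lap_posL (v : Fin (m + 2) → ℝ) (x : M) :
    S.lap (S.posL v) x = -(m : ℝ) * S.posL v x := by
  unfold posL
  rw [S.lap_sum _ _ fun j => S.smooth_mul _ _ (S.smooth_pos j) (S.smooth_const _), Finset.mul_sum]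
  refine Finset.sum_congr rfl fun j _ => ?_
  rw [S.lap_mul (S.smooth_pos j) (S.smooth_const _), S.lap_posC]
  simp only [gdot, lap, S.D_const, mul_zero, Finset.sum_const_zero]
  have : ∀ i, S.D i (S.D i fun _ => v j) x = 0 := fun i => by
    rw [show (S.D i fun _ : M => v j) = fun _ => (0 : ℝ) from funext (S.D_const i _), S.D_const]
  simp only [this, Finset.sum_const_zero]
  ring

theorem lap_nrmL (v : Fin (m + 2) → ℝ) (x : M) :
    S.lap (S.nrmL v) x = -S.sffSq x * S.nrmL v x := by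
  unfold nrmL
  rw [S.lap_sum _ _ fun j => S.smooth_mul _ _ (S.smooth_nrm j) (S.smooth_const _), Finset.mul_sum]
  refine Finset.sum_congr rfl fun j _ => ?_
  rw [S.lap_mul (S.smooth_nrm j) (S.smooth_const _), S.lap_nrmC]
  simp only [gdot, lap, S.D_const, mul_zero, Finset.sum_const_zero]
  have : ∀ i, S.D i (S.D i fun _ => v j) x = 0 := fun i => by
    rw [show (S.D i fun _ : M => v j) = fun _ => (0 : ℝ) from funext (S.D_const i _), S.D_const]
  simp only [this, Finset.sum_const_zero]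
  ring

theorem gdot_posL (v w : Fin (m + 2) → ℝ) (x : M) :
    S.gdot (S.posL v) (S.posL w) x
      = (∑ i, v i * w i) - S.posL v x * S.posL w x - S.nrmL v x * S.nrmL w x := by
  have hA : ∑ i, S.pos x i * (∑ j, S.proj i j x * w j) = 0 := by
    simp only [← S.D_posL]; exact S.pos_D _ (S.smooth_posL w) x
  have hB : ∑ i, S.nrm x i * (∑ j, S.proj i j x * w j) = 0 := by
    simp only [← S.D_posL]; exact S.nrm_D _ (S.smooth_posL w) x
  simp only [gdot, D_posL]
  have e : ∀ i, (∑ j, S.proj i j x * v j) * (∑ j, S.proj i j x * w j)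
      = v i * (∑ j, S.proj i j x * w j)
        - S.posL v x * (S.pos x i * ∑ j, S.proj i j x * w j)
        - S.nrmL v x * (S.nrm x i * ∑ j, S.proj i j x * w j) := fun i => by
    rw [S.sum_proj_mul i v]; simp only [posL, nrmL]; ring
  simp only [e, Finset.sum_sub_distrib, ← Finset.mul_sum, hA, hB, mul_zero, sub_zero]
  simp only [S.sum_proj_mul, posL, nrmL, mul_sub, Finset.sum_sub_distrib]
  simp only [mul_left_comm (v _) (S.pos x _), mul_left_comm (v _) (S.nrm x _), ← mul_assoc,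
    ← Finset.sum_mul]

/-- `|∇⟨ν, v⟩|² ≤ |A|² |vᵀ|²`. -/
theorem gdot_nrmL_le (v : Fin (m + 2) → ℝ) (x : M) :
    S.gdot (S.nrmL v) (S.nrmL v) x
      ≤ S.sffSq x * ((∑ i, v i * v i) - S.posL v x ^ 2 - S.nrmL v x ^ 2) := by
  have ht : (∑ i, v i * v i) - S.posL v x ^ 2 - S.nrmL v x ^ 2
      = ∑ i, (∑ j, S.proj i j x * v j) ^ 2 := by
    rw [sq, sq, ← S.gdot_posL v v x]
    simp only [gdot, D_posL, sq]
  rw [ht, sffSq, Finset.sum_mul, gdot]
  refine Finset.sum_le_sum fun i _ => ?_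
  have e : ∑ j, S.sff i j x * v j = ∑ j, S.sff i j x * ∑ l, S.proj j l x * v l := by
    simp only [S.sum_proj_mul, mul_sub, Finset.sum_sub_distrib]
    simp only [← mul_assoc, ← Finset.sum_mul, S.sff_pos, S.sff_nrm, zero_mul, sub_zero]
  rw [D_nrmL, e, ← sq]
  exact Finset.sum_mul_sq_le_sq_mul_sq Finset.univ _ _

theorem gdot_comp_left {u v : M → ℝ} (Φ : ℝ → ℝ) (hu : S.Smooth u) (hΦ : ContDiff ℝ ∞ Φ) (x : M) :
    S.gdot (fun y => Φ (u y)) v x = deriv Φ (u x) * S.gdot u v x := by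
  simp only [gdot, S.D_comp _ u Φ hu hΦ, Finset.mul_sum, mul_assoc]

theorem gdot_self_nonneg (u : M → ℝ) (x : M) : 0 ≤ S.gdot u u x :=
  Finset.sum_nonneg fun _ _ => mul_self_nonneg _

theorem gdot_comm (u v : M → ℝ) (x : M) : S.gdot u v x = S.gdot v u x := by
  simp only [gdot, mul_comm]

section Integral

variable [CompactSpace M] [BorelSpace M]

theorem integrable_of_smooth {u : M → ℝ} (hu : Continuous u) : Integrable u S.vol := by
  haveI := S.finite_vol
  exact hu.integrable_of_hasCompactSupport (HasCompactSupport.of_compactSpace u)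

/-- Green's identity. -/
theorem green {u v : M → ℝ} (hu : S.Smooth u) (hv : S.Smooth v) :
    ∫ x, u x * S.lap v x ∂S.vol = -∫ x, S.gdot u v x ∂S.vol := by
  have hc : ∀ w : M → ℝ, S.Smooth w → Integrable w S.vol := fun w hw =>
    S.integrable_of_smooth (S.smooth_continuous w hw)
  have s0 : ∀ i, S.Smooth fun y => u y * S.D i v y := fun i => S.smooth_mul _ _ hu (S.smooth_D i v hv)
  have sP : ∀ i, S.Smooth fun y => S.pos y i * (u y * S.D i v y) := fun i =>
    S.smooth_mul _ _ (S.smooth_pos i) (s0 i)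
  have sG : ∀ i, S.Smooth fun y => S.D i u y * S.D i v y := fun i =>
    S.smooth_mul _ _ (S.smooth_D i u hu) (S.smooth_D i v hv)
  have h : ∀ i, ∫ x, u x * S.D i (S.D i v) x ∂S.vol
      = (m : ℝ) * (∫ x, S.pos x i * (u x * S.D i v x) ∂S.vol)
        - ∫ x, S.D i u x * S.D i v x ∂S.vol := by
    intro i
    rw [← S.divergence i _ (s0 i), ← integral_sub (hc _ (S.smooth_D i _ (s0 i))) (hc _ (sG i))]
    congr 1
    funext x
    rw [S.D_mul i _ _ hu (S.smooth_D i v hv)]; ring
  have hz : ∑ i, ∫ x, S.pos x i * (u x * S.D i v x) ∂S.vol = 0 := by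
    rw [← integral_finset_sum _ fun i _ => hc _ (sP i)]
    simp only [mul_left_comm (S.pos _ _) (u _), ← Finset.mul_sum, S.pos_D v hv, mul_zero,
      integral_zero]
  simp only [lap, gdot, Finset.mul_sum]
  rw [integral_finset_sum _ fun i _ => hc _ (S.smooth_mul _ _ hu (S.smooth_D i _ (S.smooth_D i v hv))),
    integral_finset_sum _ fun i _ => hc _ (sG i)]
  simp only [h, Finset.sum_sub_distrib, ← Finset.mul_sum, hz, mul_zero, zero_sub]

theorem green_comm {u v : M → ℝ} (hu : S.Smooth u) (hv : S.Smooth v) :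
    ∫ x, u x * S.lap v x ∂S.vol = ∫ x, S.lap u x * v x ∂S.vol := by
  have h := S.green hv hu
  simp only [S.gdot_comm v u] at h
  rw [S.green hu hv, ← h]
  simp only [mul_comm]

end Integral

end MinimalImmersion

end Vale.Agent.P224.Gap
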