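import Vale.Agent.P224.Gap.Profile

/-!
# P224: comparison lemmas for the exponential profiles
-/

namespace Vale.Agent.P224.Gap

open MeasureTheory Filter Topology
open scoped ContDiff

theorem smallSq_contDiff {L : ℝ} (hL : 0 ≤ L) : ContDiff ℝ ∞ fun y : ℝ => y ^ 2 / (1 + L * y ^ 2) :=
  (contDiff_id.pow 2).div (contDiff_const.add (contDiff_const.mul (contDiff_id.pow 2)))
    fun y => (by have := mul_nonneg hL (sq_nonneg (id y)); positivity)

theorem smallSq_deriv {L : ℝ} (hL : 0 ≤ L) :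
    deriv (fun y : ℝ => y ^ 2 / (1 + L * y ^ 2)) = fun y => 2 * y / (1 + L * y ^ 2) ^ 2 := by
  funext y
  have hne : (1 + L * y ^ 2) ≠ 0 := by positivity
  have h := ((hasDerivAt_pow 2 y).div (((hasDerivAt_pow 2 y).const_mul L).const_add 1) hne).deriv
  refine h.trans ?_
  push_cast
  field_simp
  ring

theorem smallSq_deriv2 {L : ℝ} (hL : 0 ≤ L) (y : ℝ) :
    deriv (deriv fun y : ℝ => y ^ 2 / (1 + L * y ^ 2)) y
      = 2 * (1 - 3 * (L * y ^ 2)) / (1 + L * y ^ 2) ^ 3 := by
  rw [smallSq_deriv hL]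
  have hne : (1 + L * y ^ 2) ≠ 0 := by positivity
  have h := (((hasDerivAt_id' y).const_mul 2).div
    ((((hasDerivAt_pow 2 y).const_mul L).const_add 1).fun_pow 2) (pow_ne_zero 2 hne)).deriv
  refine h.trans ?_
  push_cast
  field_simp
  ring

/-- The elementary inequalities for `φ = h² / (1 + L h²)`. -/
theorem smallSq_bounds {L : ℝ} (hL : 1 ≤ L) (y : ℝ) :
    let φ := y ^ 2 / (1 + L * y ^ 2)
    let d1 := 2 * y / (1 + L * y ^ 2) ^ 2
    let d2 := 2 * (1 - 3 * (L * y ^ 2)) / (1 + L * y ^ 2) ^ 3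
    0 ≤ φ ∧ φ ≤ 1 / L ∧ d2 ≤ 2 ∧ 2 - 12 * L * φ ≤ d2 ∧ d2 * y ^ 2 ≤ 2 * φ ∧
      0 ≤ d1 * y ∧ d1 * y ≤ 2 * φ ∧ d1 ^ 2 ≤ 4 * φ ∨ y = 0 := by
  intro φ d1 d2
  rcases eq_or_ne y 0 with hy | hy
  · exact Or.inr hy
  refine Or.inl ?_
  have hu : 0 ≤ L * y ^ 2 := by positivity
  have h1 : (1 : ℝ) ≤ 1 + L * y ^ 2 := by linarith
  have hpos : 0 < 1 + L * y ^ 2 := by linarith
  have hy2 : 0 < y ^ 2 := by positivity
  have hsq : (1 : ℝ) ≤ (1 + L * y ^ 2) ^ 2 := one_le_pow₀ h1
  have hcube : (1 : ℝ) ≤ (1 + L * y ^ 2) ^ 3 := one_le_pow₀ h1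
  refine ⟨by positivity, ?_, ?_, ?_, ?_, ?_, ?_, ?_⟩
  · rw [div_le_div_iff₀ hpos (by linarith)]; nlinarith
  · rw [div_le_iff₀ (by positivity)]; nlinarith
  · simp only [φ, d2]
    rw [show 2 - 12 * L * (y ^ 2 / (1 + L * y ^ 2))
        = (2 - 10 * (L * y ^ 2)) / (1 + L * y ^ 2) by field_simp; ring,
      div_le_div_iff₀ hpos (by positivity)]
    nlinarith [mul_nonneg hu hu, mul_nonneg (mul_nonneg hu hu) hpos.le, mul_nonneg hu hpos.le,
      mul_nonneg (mul_nonneg hu hu) hu]
  · simp only [φ, d2]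
    rw [div_mul_eq_mul_div, mul_div_assoc', div_le_div_iff₀ (by positivity) hpos]
    nlinarith [mul_nonneg (mul_nonneg hy2.le hu) hpos.le, mul_nonneg hy2.le hpos.le,
      mul_nonneg (mul_nonneg (mul_nonneg hy2.le hu) hu) hpos.le]
  · simp only [d1]
    rw [div_mul_eq_mul_div]
    exact div_nonneg (by nlinarith) (sq_nonneg _)
  · simp only [φ, d1]
    rw [div_mul_eq_mul_div, mul_div_assoc', div_le_div_iff₀ (by positivity) hpos]
    nlinarith [mul_nonneg (mul_nonneg hy2.le hu) hpos.le]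
  · simp only [φ, d1]
    rw [div_pow, mul_div_assoc', div_le_div_iff₀ (by positivity) hpos]
    nlinarith [mul_le_mul_of_nonneg_left hcube (mul_nonneg hy2.le hpos.le)]

namespace MinimalImmersion

variable {m : ℕ} {M : Type} [TopologicalSpace M] [MeasurableSpace M] [CompactSpace M] [BorelSpace M]
  (S : MinimalImmersion m M) (p : Fin (m + 2) → ℝ)

theorem equatorIntegral_continuous : Continuous (equatorIntegral m) :=
  continuous_iff_continuousAt.2 fun κ => (equatorIntegral_hasDerivAt m κ).continuousAt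

theorem lapPart_le (hm : 2 ≤ m) {ψ : M → ℝ} (hψ : Continuous ψ) {l : ℝ} (hl : 1000 * (m : ℝ) ≤ l)
    {A C B : ℝ} (hA : 0 ≤ A) (hC : 0 ≤ C) (hB : 0 ≤ B)
    (htail : ∀ ν ∈ Set.Icc (l / 2) l, S.pairing p ψ ν ≤ (A + C / ν) * equatorIntegral m ν)
    (hhead : ∀ ν ∈ Set.Icc 0 (l / 2), S.pairing p ψ ν ≤ B * equatorIntegral m ν) :
    S.lapPart p ψ l ≤ 504 / 1000 * A / l ^ 2 + 504 / 1000 * C / l ^ 3 + 24 * B / l ^ 4 := by
  have hm' : (2 : ℝ) ≤ m := by exact_mod_cast hm
  have hl0 : 0 < l := by linarith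
  have hU := S.pairing_continuous p hψ
  have hZ := equatorIntegral_continuous (m := m)
  have hi : ∀ a b : ℝ, IntervalIntegrable
      (fun ν => ν ^ (m - 2) * equatorIntegral m ν * S.pairing p ψ ν) volume a b := fun a b =>
    Continuous.intervalIntegrable (by fun_prop) _ _
  have hw : 0 < weight m l := weight_pos m hl0
  have hij : ∀ j, IntervalIntegrable (fun ν => weight m ν / ν ^ j) volume (l / 2) l := fun j =>
    ContinuousOn.intervalIntegrable (((weight_div_continuousOn m j)).mono fun x hx => by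
      rw [Set.uIcc_of_le (by linarith)] at hx
      exact Set.mem_Ioi.2 (by linarith [hx.1]))
  have h1 : (∫ ν in (0 : ℝ)..l / 2, ν ^ (m - 2) * equatorIntegral m ν * S.pairing p ψ ν)
      ≤ B * (24 * weight m l / l ^ 4) := by
    refine le_trans ?_ (mul_le_mul_of_nonneg_left (kernel_head hm hl) hB)
    rw [← intervalIntegral.integral_const_mul]
    refine intervalIntegral.integral_mono_on (by linarith) (hi _ _)
      (Continuous.intervalIntegrable (by fun_prop) _ _) fun ν hν => ?_
    have := mul_le_mul_of_nonneg_left (hhead ν hν)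
      (mul_nonneg (pow_nonneg hν.1 (m - 2)) (equatorIntegral_pos m ν).le)
    exact this.trans_eq (by ring)
  have h2 : (∫ ν in (l / 2)..l, ν ^ (m - 2) * equatorIntegral m ν * S.pairing p ψ ν)
      ≤ A * (504 / 1000 * (weight m l / l ^ 2)) + C * (504 / 1000 * (weight m l / l ^ 3)) := by
    refine le_trans ?_ (add_le_add
      (mul_le_mul_of_nonneg_left (kernel_upper hm hl (j := 2) (by norm_num)) hA)
      (mul_le_mul_of_nonneg_left (kernel_upper hm hl (j := 3) (by norm_num)) hC))
    rw [← intervalIntegral.integral_const_mul, ← intervalIntegral.integral_const_mul,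
      ← intervalIntegral.integral_add ((hij 2).const_mul A) ((hij 3).const_mul C)]
    refine intervalIntegral.integral_mono_on (by linarith) (hi _ _)
      (((hij 2).const_mul A).add ((hij 3).const_mul C)) fun ν hν => ?_
    have hν0 : 0 < ν := by linarith [hν.1]
    have := mul_le_mul_of_nonneg_left (htail ν hν)
      (mul_nonneg (pow_nonneg hν0.le (m - 2)) (equatorIntegral_pos m ν).le)
    refine this.trans_eq ?_
    rw [weight, show ν ^ m = ν ^ (m - 2) * ν ^ 2 by rw [← pow_add, Nat.sub_add_cancel hm]]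
    field_simp
  rw [lapPart, ← intervalIntegral.integral_add_adjacent_intervals (hi 0 (l / 2)) (hi (l / 2) l),
    div_le_iff₀ hw]
  refine (add_le_add h1 h2).trans_eq ?_
  ring

theorem lapPart_ge (hm : 2 ≤ m) {ψ : M → ℝ} (hψ : Continuous ψ) {l : ℝ} (hl : 1000 * (m : ℝ) ≤ l)
    {A B : ℝ} (hA : 0 ≤ A) (hB : 0 ≤ B)
    (htail : ∀ ν ∈ Set.Icc (l / 2) l, A * equatorIntegral m ν ≤ S.pairing p ψ ν)
    (hhead : ∀ ν ∈ Set.Icc 0 (l / 2), -(B * equatorIntegral m ν) ≤ S.pairing p ψ ν) :
    499 / 1000 * A / l ^ 2 - 24 * B / l ^ 4 ≤ S.lapPart p ψ l := by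
  have hm' : (2 : ℝ) ≤ m := by exact_mod_cast hm
  have hl0 : 0 < l := by linarith
  have hU := S.pairing_continuous p hψ
  have hZ := equatorIntegral_continuous (m := m)
  have hi : ∀ a b : ℝ, IntervalIntegrable
      (fun ν => ν ^ (m - 2) * equatorIntegral m ν * S.pairing p ψ ν) volume a b := fun a b =>
    Continuous.intervalIntegrable (by fun_prop) _ _
  have hij : IntervalIntegrable (fun ν => weight m ν / ν ^ 2) volume (l / 2) l :=
    ContinuousOn.intervalIntegrable (((weight_div_continuousOn m 2)).mono fun x hx => by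
      rw [Set.uIcc_of_le (by linarith)] at hx
      exact Set.mem_Ioi.2 (by linarith [hx.1]))
  have h1 : -B * (24 * weight m l / l ^ 4)
      ≤ ∫ ν in (0 : ℝ)..l / 2, ν ^ (m - 2) * equatorIntegral m ν * S.pairing p ψ ν := by
    refine le_trans (mul_le_mul_of_nonpos_left (kernel_head hm hl) (by linarith)) ?_
    rw [← intervalIntegral.integral_const_mul]
    refine intervalIntegral.integral_mono_on (by linarith)
      (Continuous.intervalIntegrable (by fun_prop) _ _) (hi _ _) fun ν hν => ?_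
    have := mul_le_mul_of_nonneg_left (hhead ν hν)
      (mul_nonneg (pow_nonneg hν.1 (m - 2)) (equatorIntegral_pos m ν).le)
    exact le_of_eq_of_le (by ring) this
  have h2 : A * (499 / 1000 * (weight m l / l ^ 2))
      ≤ ∫ ν in (l / 2)..l, ν ^ (m - 2) * equatorIntegral m ν * S.pairing p ψ ν := by
    refine le_trans (mul_le_mul_of_nonneg_left (kernel_lower hm hl (j := 2) (by norm_num)) hA) ?_
    rw [← intervalIntegral.integral_const_mul]
    refine intervalIntegral.integral_mono_on (by linarith) (hij.const_mul A) (hi _ _) fun ν hν => ?_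
    have hν0 : 0 < ν := by linarith [hν.1]
    have := mul_le_mul_of_nonneg_left (htail ν hν)
      (mul_nonneg (pow_nonneg hν0.le (m - 2)) (equatorIntegral_pos m ν).le)
    refine le_of_eq_of_le ?_ this
    rw [weight, show ν ^ m = ν ^ (m - 2) * ν ^ 2 by rw [← pow_add, Nat.sub_add_cancel hm]]
    field_simp
  rw [lapPart, ← intervalIntegral.integral_add_adjacent_intervals (hi 0 (l / 2)) (hi (l / 2) l),
    le_div_iff₀ (weight_pos m hl0)]
  refine le_of_eq_of_le ?_ (add_le_add h1 h2)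
  ring

variable (hm : 2 ≤ m) (hp : ∑ i, p i * p i = 1)
include hm hp

theorem profile_le {φ : M → ℝ} (hφ : S.Smooth φ) {C φinf a b κ : ℝ} (hC : ∀ x, φ x ≤ C)
    (hκ : 0 < κ) (hlap : ∀ l, κ ≤ l → S.lapPart p (S.lap φ) l ≤ a / l ^ 2 + b / l ^ 3)
    (hlim : Tendsto (S.profile p φ) atTop (𝓝 φinf))
    (hone : Tendsto (S.profile p fun _ => (1 : ℝ)) atTop (𝓝 1)) :
    S.profile p φ κ ≤ φinf + C * (S.profile p (fun _ => 1) κ - 1) + a / κ + b / 2 / κ ^ 2 := by
  set g := fun l => S.profile p φ l - C * S.profile p (fun _ => 1) l - a / l - b / 2 / l ^ 2 with hg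
  have hd : ∀ l, 0 < l → HasDerivAt g
      (-S.drop p φ l + C * S.drop p (fun _ => 1) l + a / l ^ 2 + b / l ^ 3) l := by
    intro l hl
    have := (((S.wronskian p hp hφ hm hl).sub
      ((S.wronskian p hp (S.smooth_const 1) hm hl).const_mul C)).sub
      ((hasDerivAt_inv hl.ne').const_mul a)).sub
      (((hasDerivAt_pow 2 l).inv (pow_ne_zero 2 hl.ne')).const_mul (b / 2))
    refine (this.congr_of_eventuallyEq (Eventually.of_forall fun y => ?_)).congr_deriv ?_
    · simp only [hg, div_eq_mul_inv, Pi.sub_apply, Pi.inv_apply]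
    · push_cast; field_simp; ring
  have hmono : MonotoneOn g (Set.Ici κ) := by
    refine monotoneOn_of_hasDerivWithinAt_nonneg (convex_Ici κ)
      (fun l hl => (hd l (hκ.trans_le hl)).continuousAt.continuousWithinAt)
      (fun l hl => (hd l (by rw [interior_Ici] at hl; exact hκ.trans hl)).hasDerivWithinAt)
      fun l hl => ?_
    rw [interior_Ici, Set.mem_Ioi] at hl
    have h1 := S.drop_le p hφ hC (hκ.trans hl).le
    have h2 := hlap l hl.le
    linarith
  have hgl : Tendsto g atTop (𝓝 (φinf - C * 1 - 0 - 0)) := by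
    refine ((hlim.sub (hone.const_mul C)).sub ?_).sub ?_
    · exact tendsto_const_nhds.div_atTop tendsto_id
    · exact tendsto_const_nhds.div_atTop (tendsto_pow_atTop two_ne_zero)
  have hle := ge_of_tendsto hgl (eventually_atTop.2 ⟨κ, fun l hl => hmono Set.self_mem_Ici hl hl⟩)
  simp only [hg] at hle
  linarith

theorem le_profile {φ : M → ℝ} (hφ : S.Smooth φ) {φinf a κ : ℝ} (h0 : ∀ x, 0 ≤ φ x) (hκ : 0 < κ)
    (hlap : ∀ l, κ ≤ l → a / l ^ 2 ≤ S.lapPart p (S.lap φ) l)
    (hlim : Tendsto (S.profile p φ) atTop (𝓝 φinf)) :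
    φinf + a / κ ≤ S.profile p φ κ := by
  set g := fun l => S.profile p φ l - a / l with hg
  have hd : ∀ l, 0 < l → HasDerivAt g (-S.drop p φ l + a / l ^ 2) l := by
    intro l hl
    have := (S.wronskian p hp hφ hm hl).sub ((hasDerivAt_inv hl.ne').const_mul a)
    refine (this.congr_of_eventuallyEq (Eventually.of_forall fun y => ?_)).congr_deriv ?_
    · simp only [hg, div_eq_mul_inv, Pi.sub_apply]
    · field_simp; ring
  have hmono : AntitoneOn g (Set.Ici κ) := by
    refine antitoneOn_of_hasDerivWithinAt_nonpos (convex_Ici κ)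
      (fun l hl => (hd l (hκ.trans_le hl)).continuousAt.continuousWithinAt)
      (fun l hl => (hd l (by rw [interior_Ici] at hl; exact hκ.trans hl)).hasDerivWithinAt)
      fun l hl => ?_
    rw [interior_Ici, Set.mem_Ioi] at hl
    have h1 := S.le_drop p hφ h0 (hκ.trans hl).le
    have h2 := hlap l hl.le
    linarith
  have hgl : Tendsto g atTop (𝓝 (φinf - 0)) :=
    hlim.sub (tendsto_const_nhds.div_atTop tendsto_id)
  have hle := le_of_tendsto hgl (eventually_atTop.2 ⟨κ, fun l hl => hmono Set.self_mem_Ici hl hl⟩)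
  simp only [hg] at hle
  linarith

theorem profile_one_antitone : AntitoneOn (S.profile p fun _ => (1 : ℝ)) (Set.Ici 0) := by
  refine antitoneOn_of_hasDerivWithinAt_nonpos (convex_Ici 0) ?_
    (fun l hl => (S.wronskian p hp (S.smooth_const 1) hm
      (by rw [interior_Ici] at hl; exact hl)).hasDerivWithinAt) fun l hl => ?_
  · exact ((S.pairing_continuous p continuous_const).div equatorIntegral_continuous
      fun κ => (equatorIntegral_pos m κ).ne').continuousOn
  · rw [interior_Ici, Set.mem_Ioi] at hl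
    exact neg_nonpos.2 (S.drop_one_nonneg p hl.le)

omit hm hp

end MinimalImmersion

end Vale.Agent.P224.Gap
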