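import Mathlib

/-!
# P224: minimal immersed hypersurfaces of the sphere, primitive calculus

For a closed immersion `F : N^m → S^(m+1) ⊂ ℝ^(m+2)` let `M` be the space of its unit normals
(the orientation double cover; two copies of `N` if `N` is orientable), `flip` the change of
sign, `vol` one half of the area measure (so the total mass is `Vol F`), `pos`, `nrm` the
position and normal in coordinates, and `D i` the tangential derivative in the direction of
the `i`-th basis vector of `ℝ^(m+2)`.
-/

namespace Vale.Agent.P224.Gap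

open MeasureTheory Filter Topology
open scoped ContDiff

/-- The area of the round unit sphere `S^k`. -/
noncomputable def sphereArea (k : ℕ) : ℝ :=
  2 * Real.pi ^ ((k + 1 : ℝ) / 2) / Real.Gamma ((k + 1 : ℝ) / 2)

/-- `∫ exp (κ x_1)` over the round unit sphere `S^m`, written in polar coordinates. -/
noncomputable def equatorIntegral (m : ℕ) (κ : ℝ) : ℝ :=
  sphereArea (m - 1) *
    ∫ θ in (0 : ℝ)..Real.pi, Real.exp (κ * Real.cos θ) * Real.sin θ ^ (m - 1)

/-- The calculus on the space of unit normals of a closed minimal immersion in `S^(m+1)`. -/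
structure MinimalImmersion (m : ℕ) (M : Type) [TopologicalSpace M] [MeasurableSpace M] where
  vol : Measure M
  finite_vol : IsFiniteMeasure vol
  pos : M → Fin (m + 2) → ℝ
  nrm : M → Fin (m + 2) → ℝ
  flip : M → M
  Smooth : (M → ℝ) → Prop
  D : Fin (m + 2) → (M → ℝ) → (M → ℝ)
  smooth_continuous : ∀ u, Smooth u → Continuous u
  smooth_const : ∀ c : ℝ, Smooth fun _ => c
  smooth_add : ∀ u v, Smooth u → Smooth v → Smooth fun x => u x + v x
  smooth_mul : ∀ u v, Smooth u → Smooth v → Smooth fun x => u x * v x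
  smooth_comp : ∀ u (Φ : ℝ → ℝ), Smooth u → ContDiff ℝ ∞ Φ → Smooth fun x => Φ (u x)
  smooth_D : ∀ i u, Smooth u → Smooth (D i u)
  smooth_pos : ∀ i, Smooth fun x => pos x i
  smooth_nrm : ∀ i, Smooth fun x => nrm x i
  D_add : ∀ i u v, Smooth u → Smooth v → ∀ x, D i (fun y => u y + v y) x = D i u x + D i v x
  D_mul : ∀ i u v, Smooth u → Smooth v → ∀ x,
    D i (fun y => u y * v y) x = D i u x * v x + u x * D i v x
  D_comp : ∀ i u (Φ : ℝ → ℝ), Smooth u → ContDiff ℝ ∞ Φ → ∀ x,
    D i (fun y => Φ (u y)) x = deriv Φ (u x) * D i u x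
  /-- unit vectors, orthogonal -/
  pos_pos : ∀ x, ∑ i, pos x i * pos x i = 1
  nrm_nrm : ∀ x, ∑ i, nrm x i * nrm x i = 1
  pos_nrm : ∀ x, ∑ i, pos x i * nrm x i = 0
  /-- `D` is tangential -/
  pos_D : ∀ u, Smooth u → ∀ x, ∑ i, pos x i * D i u x = 0
  nrm_D : ∀ u, Smooth u → ∀ x, ∑ i, nrm x i * D i u x = 0
  /-- the derivative of the position is the tangent projection -/
  D_pos : ∀ i j x, D i (fun y => pos y j) x =
    (if i = j then 1 else 0) - pos x i * pos x j - nrm x i * nrm x j
  /-- symmetry of the Hessian: the derivations commute up to the projection -/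
  D_comm : ∀ i j u, Smooth u → ∀ x, D i (D j u) x - D j (D i u) x =
    ∑ k, (D i (fun y => (if j = k then 1 else 0) - pos y j * pos y k - nrm y j * nrm y k) x -
      D j (fun y => (if i = k then 1 else 0) - pos y i * pos y k - nrm y i * nrm y k) x) *
        D k u x
  /-- minimality: the mean curvature vanishes -/
  minimal : ∀ x, ∑ i, D i (fun y => nrm y i) x = 0
  /-- the divergence theorem on the closed manifold -/
  divergence : ∀ i u, Smooth u → ∫ x, D i u x ∂vol = (m : ℝ) * ∫ x, pos x i * u x ∂vol
  pos_flip : ∀ x, pos (flip x) = pos x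
  nrm_flip : ∀ x, nrm (flip x) = -nrm x
  D_flip : ∀ i u, Smooth u → ∀ x, D i (fun y => u (flip y)) x = D i u (flip x)
  smooth_flip : ∀ u, Smooth u → Smooth fun x => u (flip x)
  /-- local area density: finitely many sheets through a point, each locally an `m`-plane -/
  fibre_finite : ∀ x₀, {x | pos x = pos x₀}.Finite
  laplace_limit : ∀ x₀ (φ : M → ℝ), Continuous φ →
    Tendsto (fun κ => (∫ x, φ x * Real.exp (κ * ∑ i, pos x i * pos x₀ i) ∂vol) /
        equatorIntegral m κ) atTop
      (𝓝 ((1 / 2) * ∑ x ∈ (fibre_finite x₀).toFinset, φ x))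

namespace MinimalImmersion

variable {m : ℕ} {M : Type} [TopologicalSpace M] [MeasurableSpace M] (S : MinimalImmersion m M)

/-- The second fundamental form `∇ν` in ambient coordinates. -/
def sff (i j : Fin (m + 2)) (x : M) : ℝ := S.D i (fun y => S.nrm y j) x

/-- Its squared norm `|A|^2`. -/
def sffSq (x : M) : ℝ := ∑ i, ∑ j, S.sff i j x ^ 2

/-- The image is not totally geodesic. -/
def NotTotallyGeodesic : Prop := ∃ x, S.sffSq x ≠ 0

end MinimalImmersion

end Vale.Agent.P224.Gap
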