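import Vale.Agent.P224.Gap.Defs

/-!
# P224: the zonal exponential integral of the equator
-/

namespace Vale.Agent.P224.Gap

open MeasureTheory Filter Topology

/-- `∫ cos^j θ exp (κ cos θ) sin^k θ`. -/
noncomputable def moment (k j : ℕ) (κ : ℝ) : ℝ :=
  ∫ θ in (0 : ℝ)..Real.pi, Real.cos θ ^ j * (Real.exp (κ * Real.cos θ) * Real.sin θ ^ k)

theorem moment_hasDerivAt (k j : ℕ) (κ : ℝ) :
    HasDerivAt (moment k j) (moment k (j + 1) κ) κ := by
  have h := intervalIntegral.hasDerivAt_integral_of_dominated_loc_of_deriv_le (𝕜 := ℝ)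
    (μ := volume) (a := (0 : ℝ)) (b := Real.pi) (s := Metric.ball κ 1) (x₀ := κ)
    (F := fun κ θ => Real.cos θ ^ j * (Real.exp (κ * Real.cos θ) * Real.sin θ ^ k))
    (F' := fun κ θ => Real.cos θ ^ (j + 1) * (Real.exp (κ * Real.cos θ) * Real.sin θ ^ k))
    (bound := fun _ => Real.exp (|κ| + 1))
    (Metric.ball_mem_nhds κ one_pos)
    (Eventually.of_forall fun x => (Continuous.aestronglyMeasurable (by fun_prop)))
    (Continuous.intervalIntegrable (by fun_prop) _ _)
    (Continuous.aestronglyMeasurable (by fun_prop))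
    (Eventually.of_forall fun θ _ y hy => by
      rw [Real.norm_eq_abs, abs_mul, abs_mul, abs_pow, abs_pow, Real.abs_exp]
      have hy' : |y| ≤ |κ| + 1 := by
        have : |y - κ| < 1 := by simpa [Real.dist_eq] using hy
        have := abs_sub_abs_le_abs_sub y κ
        linarith
      have e1 : Real.exp (y * Real.cos θ) ≤ Real.exp (|κ| + 1) := by
        apply Real.exp_le_exp.2
        calc y * Real.cos θ ≤ |y * Real.cos θ| := le_abs_self _
          _ = |y| * |Real.cos θ| := abs_mul _ _
          _ ≤ |y| * 1 := by gcongr; exact Real.abs_cos_le_one θ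
          _ ≤ |κ| + 1 := by linarith
      have e2 : |Real.cos θ| ^ (j + 1) ≤ 1 := pow_le_one₀ (abs_nonneg _) (Real.abs_cos_le_one θ)
      have e3 : |Real.sin θ| ^ k ≤ 1 := pow_le_one₀ (abs_nonneg _) (Real.abs_sin_le_one θ)
      calc |Real.cos θ| ^ (j + 1) * (Real.exp (y * Real.cos θ) * |Real.sin θ| ^ k)
          ≤ 1 * (Real.exp (|κ| + 1) * 1) := by gcongr
        _ = Real.exp (|κ| + 1) := by ring)
    (by simp)
    (Eventually.of_forall fun θ _ y _ => by
      have h1 : HasDerivAt (fun y : ℝ => Real.exp (y * Real.cos θ))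
          (Real.exp (y * Real.cos θ) * Real.cos θ) y := by
        simpa using ((hasDerivAt_id y).mul_const (Real.cos θ)).exp
      exact ((h1.mul_const (Real.sin θ ^ k)).const_mul (Real.cos θ ^ j)).congr_deriv (by ring))
  exact h.2

theorem moment_continuous (k j : ℕ) : Continuous (moment k j) :=
  continuous_iff_continuousAt.2 fun κ => (moment_hasDerivAt k j κ).continuousAt

/-- Integration by parts. -/
theorem moment_ode (k : ℕ) (κ : ℝ) :
    ((k : ℝ) + 1) * moment k 1 κ = κ * (moment k 0 κ - moment k 2 κ) := by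
  have hd : ∀ θ ∈ Set.uIcc 0 Real.pi,
      HasDerivAt (fun θ => Real.exp (κ * Real.cos θ) * Real.sin θ ^ (k + 1))
        (((k : ℝ) + 1) * (Real.cos θ ^ 1 * (Real.exp (κ * Real.cos θ) * Real.sin θ ^ k))
          - κ * (Real.cos θ ^ 0 * (Real.exp (κ * Real.cos θ) * Real.sin θ ^ k)
            - Real.cos θ ^ 2 * (Real.exp (κ * Real.cos θ) * Real.sin θ ^ k))) θ := by
    intro θ _
    have h1 := ((Real.hasDerivAt_cos θ).const_mul κ).exp
    have h2 := (Real.hasDerivAt_sin θ).fun_pow (k + 1)
    refine (h1.mul h2).congr_deriv ?_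
    simp only [Nat.add_sub_cancel, pow_succ, Nat.cast_add, Nat.cast_one, pow_zero]
    linear_combination
      (-(κ * Real.exp (κ * Real.cos θ) * Real.sin θ ^ k)) * (Real.sin_sq_add_cos_sq θ)
  have h := intervalIntegral.integral_eq_sub_of_hasDerivAt hd
    (Continuous.intervalIntegrable (by fun_prop) _ _)
  rw [intervalIntegral.integral_sub (Continuous.intervalIntegrable (by fun_prop) _ _)
    (Continuous.intervalIntegrable (by fun_prop) _ _), intervalIntegral.integral_const_mul,
    intervalIntegral.integral_const_mul,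
    intervalIntegral.integral_sub (Continuous.intervalIntegrable (by fun_prop) _ _)
    (Continuous.intervalIntegrable (by fun_prop) _ _)] at h
  simp only [Real.sin_pi, Real.sin_zero, zero_pow (Nat.succ_ne_zero k), mul_zero, sub_zero] at h
  unfold moment
  linarith

theorem moment_one_le_zero (k : ℕ) (κ : ℝ) : moment k 1 κ ≤ moment k 0 κ := by
  refine intervalIntegral.integral_mono_on Real.pi_nonneg
    (Continuous.intervalIntegrable (by fun_prop) _ _)
    (Continuous.intervalIntegrable (by fun_prop) _ _) fun θ hθ => ?_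
  rw [pow_one, pow_zero]
  exact mul_le_mul_of_nonneg_right (Real.cos_le_one θ)
    (mul_nonneg (Real.exp_pos _).le (pow_nonneg (Real.sin_nonneg_of_mem_Icc hθ) k))

theorem moment_zero_zero_pos (k : ℕ) : 0 < moment k 0 0 := by
  simp only [moment, pow_zero, one_mul, zero_mul, Real.exp_zero]
  exact integral_sin_pow_pos k

/-- `e^x ≥ 1 + x` and `∫ cos sin^k = 0`. -/
theorem moment_zero_ge (k : ℕ) (κ : ℝ) : moment k 0 0 ≤ moment k 0 κ := by
  have h0 : moment k 1 0 = 0 := by
    have := moment_ode k 0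
    simp only [zero_mul] at this
    exact (mul_eq_zero.1 this).resolve_left (by positivity)
  have h : moment k 0 0 + κ * moment k 1 0 ≤ moment k 0 κ := by
    unfold moment
    rw [← intervalIntegral.integral_const_mul, ← intervalIntegral.integral_add
      (Continuous.intervalIntegrable (by fun_prop) _ _)
      (Continuous.intervalIntegrable (by fun_prop) _ _)]
    refine intervalIntegral.integral_mono_on Real.pi_nonneg
      (Continuous.intervalIntegrable (by fun_prop) _ _)
      (Continuous.intervalIntegrable (by fun_prop) _ _) fun θ hθ => ?_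
    have hs : 0 ≤ Real.sin θ ^ k := pow_nonneg (Real.sin_nonneg_of_mem_Icc hθ) k
    have := mul_le_mul_of_nonneg_right (Real.add_one_le_exp (κ * Real.cos θ)) hs
    simp only [pow_zero, pow_one, one_mul, zero_mul, Real.exp_zero]
    linarith
  rwa [h0, mul_zero, add_zero] at h

theorem moment_zero_pos (k : ℕ) (κ : ℝ) : 0 < moment k 0 κ :=
  (moment_zero_zero_pos k).trans_le (moment_zero_ge k κ)

theorem mul_exp_neg_le {x : ℝ} : x * Real.exp (-x) ≤ 1 / 2 := by
  have h := Real.quadratic_le_exp_of_nonneg (x := x)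
  rcases le_or_gt x 0 with hx | hx
  · exact (mul_nonpos_of_nonpos_of_nonneg hx (Real.exp_pos _).le).trans (by norm_num)
  · rw [Real.exp_neg, ← div_eq_mul_inv, div_le_iff₀ (Real.exp_pos _)]
    nlinarith [h hx.le, sq_nonneg (x - 1)]

theorem moment_one_ge {k : ℕ} {κ : ℝ} (hκ : 0 < κ) :
    (1 - ((k : ℝ) + 2) / κ) * moment k 0 κ ≤ moment k 1 κ := by
  have hA : moment k 2 κ - (1 / κ) * moment k 0 0 ≤ moment k 1 κ := by
    unfold moment
    rw [← intervalIntegral.integral_const_mul, ← intervalIntegral.integral_sub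
      (Continuous.intervalIntegrable (by fun_prop) _ _)
      (Continuous.intervalIntegrable (by fun_prop) _ _)]
    refine intervalIntegral.integral_mono_on Real.pi_nonneg
      (Continuous.intervalIntegrable (by fun_prop) _ _)
      (Continuous.intervalIntegrable (by fun_prop) _ _) fun θ hθ => ?_
    have hs : 0 ≤ Real.sin θ ^ k := pow_nonneg (Real.sin_nonneg_of_mem_Icc hθ) k
    have key : Real.cos θ ^ 2 * Real.exp (κ * Real.cos θ) - 1 / κ
        ≤ Real.cos θ * Real.exp (κ * Real.cos θ) := by
      have he := Real.exp_pos (κ * Real.cos θ)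
      have hc := Real.cos_le_one θ
      have hc' := Real.neg_one_le_cos θ
      rcases le_or_gt 0 (Real.cos θ) with h | h
      · have : (0 : ℝ) < 1 / κ := by positivity
        nlinarith [mul_nonneg (mul_nonneg h (sub_nonneg.2 hc)) he.le]
      · have h2 := mul_exp_neg_le (x := -(κ * Real.cos θ))
        rw [neg_neg] at h2
        have h3 : -Real.cos θ * Real.exp (κ * Real.cos θ) ≤ 1 / (2 * κ) := by
          rw [le_div_iff₀ (by positivity)]
          nlinarith
        have h4 : -Real.cos θ * (1 - Real.cos θ) * Real.exp (κ * Real.cos θ)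
            ≤ 2 * (1 / (2 * κ)) := by
          calc _ = (1 - Real.cos θ) * (-Real.cos θ * Real.exp (κ * Real.cos θ)) := by ring
            _ ≤ 2 * (1 / (2 * κ)) := by
              gcongr
              · exact mul_nonneg (by linarith) he.le
              · linarith
        have : 2 * (1 / (2 * κ)) = 1 / κ := by field_simp
        nlinarith
    have := mul_le_mul_of_nonneg_right key hs
    simp only [pow_one, pow_zero, one_mul, zero_mul, Real.exp_zero]
    nlinarith
  have hode := moment_ode k κ
  have h1 := moment_one_le_zero k κ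
  have h0 := moment_zero_ge k κ
  have e : ((k : ℝ) + 2) / κ * κ = (k : ℝ) + 2 := by field_simp
  have e' : 1 / κ * κ = 1 := by field_simp
  refine le_of_mul_le_mul_right ?_ hκ
  have h2 := mul_le_mul_of_nonneg_right hA hκ.le
  have h3 := mul_le_mul_of_nonneg_left h1 (by positivity : (0 : ℝ) ≤ (k : ℝ) + 1)
  rw [sub_mul, mul_right_comm (1 / κ) _ κ, e', one_mul] at h2
  rw [mul_right_comm, sub_mul, one_mul, e]
  linarith

theorem sphereArea_pos (k : ℕ) : 0 < sphereArea k :=
  div_pos (mul_pos two_pos (Real.rpow_pos_of_pos Real.pi_pos _))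
    (Real.Gamma_pos_of_pos (by positivity))

theorem equatorIntegral_eq (m : ℕ) (κ : ℝ) :
    equatorIntegral m κ = sphereArea (m - 1) * moment (m - 1) 0 κ := by
  simp [equatorIntegral, moment]

theorem integral_sin_pow_gamma : ∀ k : ℕ, (∫ θ in (0 : ℝ)..Real.pi, Real.sin θ ^ k) *
    Real.Gamma ((k : ℝ) / 2 + 1) = Real.sqrt Real.pi * Real.Gamma (((k : ℝ) + 1) / 2)
  | 0 => by
    norm_num [Real.Gamma_one]
    rw [Real.Gamma_one_half_eq, Real.mul_self_sqrt Real.pi_nonneg]
  | 1 => by
    have h : Real.Gamma ((1 : ℝ) / 2 + 1) = 1 / 2 * Real.sqrt Real.pi := by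
      rw [Real.Gamma_add_one (by norm_num), Real.Gamma_one_half_eq]
    have hc : (∫ θ in (0 : ℝ)..Real.pi, Real.sin θ ^ 1) = 2 := by
      simp only [pow_one, integral_sin]; simp; norm_num
    rw [hc]; push_cast; rw [h]; norm_num [Real.Gamma_one]; ring
  | k + 2 => by
    have h := integral_sin_pow_gamma k
    rw [integral_sin_pow k]
    push_cast
    rw [show ((k : ℝ) + 2) / 2 + 1 = ((k : ℝ) / 2 + 1) + 1 by ring,
      Real.Gamma_add_one (s := (k : ℝ) / 2 + 1) (by positivity),
      show ((k : ℝ) + 2 + 1) / 2 = ((k : ℝ) + 1) / 2 + 1 by ring,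
      Real.Gamma_add_one (s := ((k : ℝ) + 1) / 2) (by positivity)]
    simp only [Real.sin_zero, Real.sin_pi, zero_pow (Nat.succ_ne_zero k), zero_mul, sub_zero,
      zero_div, zero_add]
    have hk : (k : ℝ) + 2 ≠ 0 := by positivity
    generalize Real.Gamma ((k : ℝ) / 2 + 1) = G at h ⊢
    generalize Real.Gamma (((k : ℝ) + 1) / 2) = H at h ⊢
    field_simp
    linear_combination h

theorem equatorIntegral_zero {m : ℕ} (hm : 1 ≤ m) : equatorIntegral m 0 = sphereArea m := by
  obtain ⟨k, rfl⟩ : ∃ k, m = k + 1 := ⟨m - 1, by omega⟩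
  have h := integral_sin_pow_gamma k
  have hp : Real.pi ^ (((k : ℝ) + 1 + 1) / 2)
      = Real.pi ^ (((k : ℝ) + 1) / 2) * Real.sqrt Real.pi := by
    rw [Real.sqrt_eq_rpow, ← Real.rpow_add Real.pi_pos]; ring_nf
  have g1 := Real.Gamma_pos_of_pos (show (0 : ℝ) < (k : ℝ) / 2 + 1 by positivity)
  have g2 := Real.Gamma_pos_of_pos (show (0 : ℝ) < ((k : ℝ) + 1) / 2 by positivity)
  simp only [equatorIntegral, sphereArea, Nat.add_sub_cancel, zero_mul, Real.exp_zero, one_mul]
  push_cast
  rw [hp, show ((k : ℝ) + 1 + 1) / 2 = (k : ℝ) / 2 + 1 by ring]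
  generalize Real.Gamma ((k : ℝ) / 2 + 1) = G at h g1 ⊢
  generalize Real.Gamma (((k : ℝ) + 1) / 2) = H at h g2 ⊢
  field_simp
  linear_combination h

end Vale.Agent.P224.Gap
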