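import Vale.Agent.P224.Gap.TorusLaplace

/-!
# P224: the Clifford torus is an instance of the primitive model, and is not totally geodesic
-/

namespace Vale.Agent.P224.Gap.Clifford

open MeasureTheory Filter Topology
open scoped ContDiff

attribute [local instance] twoPiFact

/-- Inverse of `√2`. -/
noncomputable def c : ℝ := (Real.sqrt 2)⁻¹

theorem c_sq : c * c = 1 / 2 := by
  rw [c, ← mul_inv, Real.mul_self_sqrt two_pos.le, one_div]

/-- The sheet sign. -/
def sg (b : Bool) : ℝ := if b then 1 else -1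

theorem sg_sq (b : Bool) : sg b * sg b = 1 := by cases b <;> simp [sg]

/-- Position. -/
noncomputable def pos (x : Mt) (i : Fin 4) : ℝ :=
  c * ![cosT x.1.1, sinT x.1.1, cosT x.1.2, sinT x.1.2] i

/-- Unit normal. -/
noncomputable def nrm (x : Mt) (i : Fin 4) : ℝ :=
  sg x.2 * c * ![cosT x.1.1, sinT x.1.1, -cosT x.1.2, -sinT x.1.2] i

/-- First unit tangent vector. -/
noncomputable def e1 (x : Mt) (i : Fin 4) : ℝ := ![-sinT x.1.1, cosT x.1.1, 0, 0] i

/-- Second unit tangent vector. -/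
noncomputable def e2 (x : Mt) (i : Fin 4) : ℝ := ![0, 0, -sinT x.1.2, cosT x.1.2] i

/-- Unit speed derivative along the first circle. -/
noncomputable def X (u : Mt → ℝ) (x : Mt) : ℝ := Real.sqrt 2 * dd (1, 0) u x

/-- Unit speed derivative along the second circle. -/
noncomputable def Y (u : Mt → ℝ) (x : Mt) : ℝ := Real.sqrt 2 * dd (0, 1) u x

/-- The ambient tangential derivative. -/
noncomputable def D (i : Fin 4) (u : Mt → ℝ) (x : Mt) : ℝ := e1 x i * X u x + e2 x i * Y u x

theorem sqrt_two_c : Real.sqrt 2 * c = 1 := mul_inv_cancel₀ (by positivity)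

theorem smooth_neg {u : Mt → ℝ} (hu : Smooth u) : Smooth fun x => -u x := by
  simpa using (smooth_const (-1)).mul hu

theorem dd_neg {u : Mt → ℝ} (hu : Smooth u) (v : ℝ × ℝ) (x : Mt) :
    dd v (fun y => -u y) x = -dd v u x := by
  have := dd_mul (smooth_const (-1)) hu v x
  simpa [dd_const] using this

theorem smooth_pos (i : Fin 4) : Smooth fun x => pos x i := by
  fin_cases i
  · exact (smooth_const c).mul smooth_cos_fst
  · exact (smooth_const c).mul smooth_sin_fst
  · exact (smooth_const c).mul smooth_cos_snd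
  · exact (smooth_const c).mul smooth_sin_snd

theorem smooth_sgc : Smooth fun x => sg x.2 * c := (smooth_sheet sg).mul (smooth_const c)

theorem smooth_nrm (i : Fin 4) : Smooth fun x => nrm x i := by
  fin_cases i
  · exact smooth_sgc.mul smooth_cos_fst
  · exact smooth_sgc.mul smooth_sin_fst
  · exact smooth_sgc.mul (smooth_neg smooth_cos_snd)
  · exact smooth_sgc.mul (smooth_neg smooth_sin_snd)

theorem smooth_e1 (i : Fin 4) : Smooth fun x => e1 x i := by
  fin_cases i
  · exact smooth_neg smooth_sin_fst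
  · exact smooth_cos_fst
  · exact smooth_const 0
  · exact smooth_const 0

theorem smooth_e2 (i : Fin 4) : Smooth fun x => e2 x i := by
  fin_cases i
  · exact smooth_const 0
  · exact smooth_const 0
  · exact smooth_neg smooth_sin_snd
  · exact smooth_cos_snd

theorem Smooth.X {u : Mt → ℝ} (hu : Smooth u) : Smooth (Clifford.X u) :=
  (smooth_const _).mul (hu.dd _)

theorem Smooth.Y {u : Mt → ℝ} (hu : Smooth u) : Smooth (Clifford.Y u) :=
  (smooth_const _).mul (hu.dd _)

theorem Smooth.D {u : Mt → ℝ} (hu : Smooth u) (i : Fin 4) : Smooth (Clifford.D i u) :=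
  ((smooth_e1 i).mul hu.X).add ((smooth_e2 i).mul hu.Y)

theorem X_add {u w : Mt → ℝ} (hu : Smooth u) (hw : Smooth w) (x : Mt) :
    X (fun y => u y + w y) x = X u x + X w x := by simp [X, dd_add hu hw, mul_add]

theorem Y_add {u w : Mt → ℝ} (hu : Smooth u) (hw : Smooth w) (x : Mt) :
    Y (fun y => u y + w y) x = Y u x + Y w x := by simp [Y, dd_add hu hw, mul_add]

theorem X_mul {u w : Mt → ℝ} (hu : Smooth u) (hw : Smooth w) (x : Mt) :
    X (fun y => u y * w y) x = X u x * w x + u x * X w x := by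
  simp only [X, dd_mul hu hw]; ring

theorem Y_mul {u w : Mt → ℝ} (hu : Smooth u) (hw : Smooth w) (x : Mt) :
    Y (fun y => u y * w y) x = Y u x * w x + u x * Y w x := by
  simp only [Y, dd_mul hu hw]; ring

theorem X_Y_comm {u : Mt → ℝ} (hu : Smooth u) (x : Mt) : X (Y u) x = Y (X u) x := by
  show Real.sqrt 2 * dd (1, 0) (fun y => Real.sqrt 2 * dd (0, 1) u y) x
    = Real.sqrt 2 * dd (0, 1) (fun y => Real.sqrt 2 * dd (1, 0) u y) x
  rw [dd_mul (smooth_const _) (hu.dd _), dd_mul (smooth_const _) (hu.dd _), dd_const, dd_const,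
    dd_comm hu (1, 0) (0, 1)]
  ring

/-- The derivative of the first tangent vector along the first circle. -/
noncomputable def A (x : Mt) (i : Fin 4) : ℝ :=
  Real.sqrt 2 * ![-cosT x.1.1, -sinT x.1.1, 0, 0] i

/-- The derivative of the second tangent vector along the second circle. -/
noncomputable def B (x : Mt) (i : Fin 4) : ℝ :=
  Real.sqrt 2 * ![0, 0, -cosT x.1.2, -sinT x.1.2] i

theorem X_e1 (i : Fin 4) (x : Mt) : X (fun y => e1 y i) x = A x i := by
  fin_cases i <;>
    simp [X, A, e1, dd_neg smooth_sin_fst, dd_sin_fst, dd_cos_fst, dd_const]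

theorem Y_e1 (i : Fin 4) (x : Mt) : Y (fun y => e1 y i) x = 0 := by
  fin_cases i <;>
    simp [Y, e1, dd_neg smooth_sin_fst, dd_sin_fst, dd_cos_fst, dd_const]

theorem X_e2 (i : Fin 4) (x : Mt) : X (fun y => e2 y i) x = 0 := by
  fin_cases i <;>
    simp [X, e2, dd_neg smooth_sin_snd, dd_sin_snd, dd_cos_snd, dd_const]

theorem Y_e2 (i : Fin 4) (x : Mt) : Y (fun y => e2 y i) x = B x i := by
  fin_cases i <;>
    simp [Y, B, e2, dd_neg smooth_sin_snd, dd_sin_snd, dd_cos_snd, dd_const]

theorem X_pos (i : Fin 4) (x : Mt) : X (fun y => pos y i) x = e1 x i := by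
  fin_cases i <;>
    simp [X, pos, e1, dd_mul (smooth_const c) smooth_cos_fst, dd_mul (smooth_const c) smooth_sin_fst,
      dd_mul (smooth_const c) smooth_cos_snd, dd_mul (smooth_const c) smooth_sin_snd,
      dd_sin_fst, dd_cos_fst, dd_sin_snd, dd_cos_snd, dd_const, ← mul_assoc, sqrt_two_c]

theorem Y_pos (i : Fin 4) (x : Mt) : Y (fun y => pos y i) x = e2 x i := by
  fin_cases i <;>
    simp [Y, pos, e2, dd_mul (smooth_const c) smooth_cos_fst, dd_mul (smooth_const c) smooth_sin_fst,
      dd_mul (smooth_const c) smooth_cos_snd, dd_mul (smooth_const c) smooth_sin_snd,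
      dd_sin_fst, dd_cos_fst, dd_sin_snd, dd_cos_snd, dd_const, ← mul_assoc, sqrt_two_c]

theorem dd_sgc (v : ℝ × ℝ) (x : Mt) : dd v (fun y => sg y.2 * c) x = 0 :=
  dd_sheet (fun b => sg b * c) v x

/-- The vector part of the normal. -/
noncomputable def n0 (x : Mt) (i : Fin 4) : ℝ :=
  ![cosT x.1.1, sinT x.1.1, -cosT x.1.2, -sinT x.1.2] i

theorem smooth_n0 (i : Fin 4) : Smooth fun x => n0 x i := by
  fin_cases i
  · exact smooth_cos_fst
  · exact smooth_sin_fst
  · exact smooth_neg smooth_cos_snd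
  · exact smooth_neg smooth_sin_snd

theorem X_n0 (i : Fin 4) (x : Mt) : X (fun y => n0 y i) x = Real.sqrt 2 * e1 x i := by
  fin_cases i <;>
    simp [X, n0, e1, dd_neg smooth_cos_snd, dd_neg smooth_sin_snd, dd_sin_fst, dd_cos_fst,
      dd_sin_snd, dd_cos_snd]

theorem Y_n0 (i : Fin 4) (x : Mt) : Y (fun y => n0 y i) x = -(Real.sqrt 2 * e2 x i) := by
  fin_cases i <;>
    simp [Y, n0, e2, dd_neg smooth_cos_snd, dd_neg smooth_sin_snd, dd_sin_fst, dd_cos_fst,
      dd_sin_snd, dd_cos_snd]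

theorem X_nrm (i : Fin 4) (x : Mt) : X (fun y => nrm y i) x = sg x.2 * e1 x i := by
  rw [show (fun y => nrm y i) = fun y => (fun y => sg y.2 * c) y * (fun y => n0 y i) y from rfl,
    X_mul smooth_sgc (smooth_n0 i), X_n0]
  simp only [X, dd_sgc]
  linear_combination (sg x.2 * e1 x i) * sqrt_two_c

theorem Y_nrm (i : Fin 4) (x : Mt) : Y (fun y => nrm y i) x = -(sg x.2 * e2 x i) := by
  rw [show (fun y => nrm y i) = fun y => (fun y => sg y.2 * c) y * (fun y => n0 y i) y from rfl,
    Y_mul smooth_sgc (smooth_n0 i), Y_n0]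
  simp only [Y, dd_sgc]
  linear_combination (-(sg x.2 * e2 x i)) * sqrt_two_c

theorem proj_eq (x : Mt) (i j : Fin 4) :
    (if i = j then (1 : ℝ) else 0) - pos x i * pos x j - nrm x i * nrm x j
      = e1 x i * e1 x j + e2 x i * e2 x j := by
  have h1 := cosT_sq_add x.1.1
  have h2 := cosT_sq_add x.1.2
  have hs := sg_sq x.2
  have hc := c_sq
  have key : sg x.2 * c * (sg x.2 * c) = 1 / 2 := by linear_combination (c * c) * hs + hc
  have e : ∀ a b : ℝ, c * a * (c * b) = 1 / 2 * (a * b) := fun a b => by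
    linear_combination (a * b) * hc
  have e' : ∀ a b : ℝ, sg x.2 * c * a * (sg x.2 * c * b) = 1 / 2 * (a * b) := fun a b => by
    linear_combination (a * b) * key
  simp only [pos, nrm, e, e']
  fin_cases i <;> fin_cases j <;>
    simp [e1, e2] <;> linarith

theorem e1_e1 (x : Mt) : ∑ k, e1 x k * e1 x k = 1 := by
  simp [Fin.sum_univ_four, e1]
  linear_combination cosT_sq_add x.1.1

theorem e2_e2 (x : Mt) : ∑ k, e2 x k * e2 x k = 1 := by
  simp [Fin.sum_univ_four, e2]
  linear_combination cosT_sq_add x.1.2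

theorem e1_e2 (x : Mt) : ∑ k, e1 x k * e2 x k = 0 := by simp [Fin.sum_univ_four, e1, e2]

theorem D_D {u : Mt → ℝ} (hu : Smooth u) (i j : Fin 4) (x : Mt) :
    D i (D j u) x = e1 x i * (A x j * X u x + e1 x j * X (X u) x + e2 x j * X (Y u) x)
      + e2 x i * (e1 x j * Y (X u) x + B x j * Y u x + e2 x j * Y (Y u) x) := by
  rw [D, show D j u = fun y => (fun y => e1 y j * X u y) y + (fun y => e2 y j * Y u y) y from rfl,
    X_add ((smooth_e1 j).mul hu.X) ((smooth_e2 j).mul hu.Y),
    Y_add ((smooth_e1 j).mul hu.X) ((smooth_e2 j).mul hu.Y),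
    X_mul (smooth_e1 j) hu.X, X_mul (smooth_e2 j) hu.Y, Y_mul (smooth_e1 j) hu.X,
    Y_mul (smooth_e2 j) hu.Y, X_e1, X_e2, Y_e1, Y_e2]
  ring

theorem D_proj (i j k : Fin 4) (x : Mt) :
    D i (fun y => (if j = k then (1 : ℝ) else 0) - pos y j * pos y k - nrm y j * nrm y k) x
      = e1 x i * (A x j * e1 x k + e1 x j * A x k) + e2 x i * (B x j * e2 x k + e2 x j * B x k) := by
  rw [show (fun y => (if j = k then (1 : ℝ) else 0) - pos y j * pos y k - nrm y j * nrm y k)
      = fun y => (fun y => e1 y j * e1 y k) y + (fun y => e2 y j * e2 y k) y from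
    funext fun y => proj_eq y j k]
  rw [D, X_add ((smooth_e1 j).mul (smooth_e1 k)) ((smooth_e2 j).mul (smooth_e2 k)),
    Y_add ((smooth_e1 j).mul (smooth_e1 k)) ((smooth_e2 j).mul (smooth_e2 k)),
    X_mul (smooth_e1 j) (smooth_e1 k), X_mul (smooth_e2 j) (smooth_e2 k),
    Y_mul (smooth_e1 j) (smooth_e1 k), Y_mul (smooth_e2 j) (smooth_e2 k),
    X_e1, X_e1, X_e2, X_e2, Y_e1, Y_e1, Y_e2, Y_e2]
  ring

theorem D_comm {u : Mt → ℝ} (hu : Smooth u) (i j : Fin 4) (x : Mt) :
    D i (D j u) x - D j (D i u) x =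
    ∑ k, (D i (fun y => (if j = k then 1 else 0) - pos y j * pos y k - nrm y j * nrm y k) x -
      D j (fun y => (if i = k then 1 else 0) - pos y i * pos y k - nrm y i * nrm y k) x) *
        D k u x := by
  have e : ∀ k, (D i (fun y => (if j = k then (1 : ℝ) else 0) - pos y j * pos y k
      - nrm y j * nrm y k) x -
      D j (fun y => (if i = k then (1 : ℝ) else 0) - pos y i * pos y k - nrm y i * nrm y k) x) *
        D k u x =
      (e1 x i * A x j - e1 x j * A x i) * X u x * (e1 x k * e1 x k)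
      + ((e1 x i * A x j - e1 x j * A x i) * Y u x
        + (e2 x i * B x j - e2 x j * B x i) * X u x) * (e1 x k * e2 x k)
      + (e2 x i * B x j - e2 x j * B x i) * Y u x * (e2 x k * e2 x k) := fun k => by
    rw [D_proj, D_proj, D]
    ring
  simp only [e, Finset.sum_add_distrib, ← Finset.mul_sum, e1_e1, e1_e2, e2_e2]
  rw [D_D hu, D_D hu, X_Y_comm hu]
  ring

theorem X_A_pos (i : Fin 4) (x : Mt) : A x i + B x i = -(2 * pos x i) := by
  have h : Real.sqrt 2 = 2 * c := by
    rw [c, ← div_eq_mul_inv, Real.div_sqrt]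
  fin_cases i <;> simp [A, B, pos, h] <;> ring

theorem divergence {u : Mt → ℝ} (hu : Smooth u) (i : Fin 4) :
    ∫ x, D i u x ∂vol = (2 : ℝ) * ∫ x, pos x i * u x ∂vol := by
  have hi : ∀ {f : Mt → ℝ}, Smooth f → Integrable f vol := fun hf =>
    hf.continuous.integrable_of_hasCompactSupport (HasCompactSupport.of_compactSpace _)
  have hz : ∀ {f : Mt → ℝ} (v : ℝ × ℝ), Smooth f → ∫ x, Real.sqrt 2 * dd v f x ∂vol = 0 := by
    intro f v hf
    rw [integral_const_mul, integral_dd_eq_zero hf, mul_zero]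
  have e : ∀ x, D i u x = X (fun y => e1 y i * u y) x + Y (fun y => e2 y i * u y) x
      + 2 * (pos x i * u x) := by
    intro x
    rw [D, X_mul (smooth_e1 i) hu, Y_mul (smooth_e2 i) hu, X_e1, Y_e2]
    linear_combination (-u x) * X_A_pos i x
  have h1 : Integrable (fun x => X (fun y => e1 y i * u y) x) vol := hi ((smooth_e1 i).mul hu).X
  have h2 : Integrable (fun x => Y (fun y => e2 y i * u y) x) vol := hi ((smooth_e2 i).mul hu).Y
  simp only [e]
  have hX : ∫ x, X (fun y => e1 y i * u y) x ∂vol = 0 := hz _ ((smooth_e1 i).mul hu)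
  have hY : ∫ x, Y (fun y => e2 y i * u y) x ∂vol = 0 := hz _ ((smooth_e2 i).mul hu)
  rw [integral_add (f := fun x => X (fun y => e1 y i * u y) x + Y (fun y => e2 y i * u y) x)
    (h1.add h2) ((hi ((smooth_pos i).mul hu)).const_mul 2), integral_add h1 h2,
    hX, hY, integral_const_mul]
  simp

theorem eq_of_pos_eq {x y : Mt} (h : pos x = pos y) : x.1 = y.1 := by
  have hc : c ≠ 0 := inv_ne_zero (by positivity)
  have h0 := mul_left_cancel₀ hc (congrFun h 0)
  have h1 := mul_left_cancel₀ hc (congrFun h 1)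
  have h2 := mul_left_cancel₀ hc (congrFun h 2)
  have h3 := mul_left_cancel₀ hc (congrFun h 3)
  simp only [Matrix.cons_val] at h0 h1 h2 h3
  exact Prod.ext (circle_ext h0 h1) (circle_ext h2 h3)

theorem fibre_eq (x₀ : Mt) : {x : Mt | pos x = pos x₀} = {(x₀.1, true), (x₀.1, false)} := by
  ext x
  constructor
  · intro h
    obtain ⟨z, b⟩ := x
    have : z = x₀.1 := eq_of_pos_eq h
    subst this
    cases b <;> simp
  · rintro (rfl | rfl) <;> rfl

theorem fibre_finite (x₀ : Mt) : {x : Mt | pos x = pos x₀}.Finite := by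
  rw [fibre_eq]; exact Set.toFinite _

theorem pos_inner (x x₀ : Mt) : ∑ i, pos x i * pos x₀ i =
    (cosT (x.1.1 - x₀.1.1) + cosT (x.1.2 - x₀.1.2)) / 2 := by
  obtain ⟨r, q, b, rfl⟩ := exists_lift x
  obtain ⟨r', q', b', rfl⟩ := exists_lift x₀
  simp only [← AddCircle.coe_sub, cosT_coe, Real.cos_sub, pos, Fin.sum_univ_four, Matrix.cons_val,
    cosT_coe, sinT_coe]
  linear_combination (Real.cos r * Real.cos r' + Real.sin r * Real.sin r'
    + Real.cos q * Real.cos q' + Real.sin q * Real.sin q') * c_sq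

theorem laplace_limit (x₀ : Mt) {φ : Mt → ℝ} (hφ : Continuous φ) :
    Tendsto (fun κ => (∫ x, φ x * Real.exp (κ * ∑ i, pos x i * pos x₀ i) ∂vol) /
        equatorIntegral 2 κ) atTop
      (𝓝 ((1 / 2) * ∑ x ∈ (fibre_finite x₀).toFinset, φ x)) := by
  have hf : (fibre_finite x₀).toFinset = {(x₀.1, true), (x₀.1, false)} := by
    rw [← Finset.coe_inj, Set.Finite.coe_toFinset, fibre_eq]; simp
  rw [hf, Finset.sum_pair (by simp)]
  refine (torus_laplace hφ x₀.1.1 x₀.1.2).congr' (Eventually.of_forall fun κ => ?_)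
  have hcont : Continuous fun x : Mt => φ x * Real.exp (κ * ∑ i, pos x i * pos x₀ i) :=
    hφ.mul (Real.continuous_exp.comp (continuous_const.mul (continuous_finsetSum _ fun i _ =>
      ((smooth_pos i).continuous).mul continuous_const)))
  dsimp only
  rw [integral_vol hcont]
  simp only [pos_inner]

/-- The Clifford torus `S^1(1/√2) × S^1(1/√2)` as a minimal immersion in `S^3`. -/
noncomputable def cliffordTorus : MinimalImmersion 2 Mt where
  vol := vol
  finite_vol := vol_finite
  pos := pos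
  nrm := nrm
  flip x := (x.1, !x.2)
  Smooth := Smooth
  D := D
  smooth_continuous _ h := h.continuous
  smooth_const := smooth_const
  smooth_add _ _ := Smooth.add
  smooth_mul _ _ := Smooth.mul
  smooth_comp _ _ hu hΦ := hu.comp hΦ
  smooth_D i _ hu := hu.D i
  smooth_pos := smooth_pos
  smooth_nrm := smooth_nrm
  D_add i u v hu hv x := by simp only [D, X_add hu hv, Y_add hu hv]; ring
  D_mul i u v hu hv x := by simp only [D, X_mul hu hv, Y_mul hu hv]; ring
  D_comp i u Φ hu hΦ x := by simp only [D, X, Y, dd_comp hu hΦ]; ring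
  pos_pos x := by
    show (∑ i : Fin 4, pos x i * pos x i) = 1
    simp only [Fin.sum_univ_four, pos, Matrix.cons_val]
    linear_combination (c * c) * (cosT_sq_add x.1.1) + (c * c) * (cosT_sq_add x.1.2) + 2 * c_sq
  nrm_nrm x := by
    show (∑ i : Fin 4, nrm x i * nrm x i) = 1
    simp only [Fin.sum_univ_four, nrm, Matrix.cons_val]
    linear_combination (c * c) * (sg x.2 * sg x.2) * (cosT_sq_add x.1.1)
      + (c * c) * (sg x.2 * sg x.2) * (cosT_sq_add x.1.2) + 2 * (c * c) * sg_sq x.2 + 2 * c_sq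
  pos_nrm x := by
    show (∑ i : Fin 4, pos x i * nrm x i) = 0
    simp only [Fin.sum_univ_four, pos, nrm, Matrix.cons_val]
    linear_combination (sg x.2 * (c * c)) * (cosT_sq_add x.1.1 - cosT_sq_add x.1.2)
  pos_D u hu x := by
    simp [Fin.sum_univ_four, pos, D, e1, e2]
    ring
  nrm_D u hu x := by
    simp [Fin.sum_univ_four, nrm, D, e1, e2]
    ring
  D_pos i j x := by rw [D, X_pos, Y_pos, ← proj_eq]
  D_comm i j u hu x := D_comm hu i j x
  minimal x := by
    simp only [D, X_nrm, Y_nrm]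
    have h1 := e1_e1 x
    have h2 := e2_e2 x
    calc (∑ i, (e1 x i * (sg x.2 * e1 x i) + e2 x i * -(sg x.2 * e2 x i)))
        = sg x.2 * (∑ i, e1 x i * e1 x i) - sg x.2 * (∑ i, e2 x i * e2 x i) := by
          rw [Finset.mul_sum, Finset.mul_sum, ← Finset.sum_sub_distrib]
          exact Finset.sum_congr rfl fun i _ => by ring
      _ = 0 := by rw [h1, h2]; ring
  divergence i u hu := by simpa using divergence hu i
  pos_flip _ := rfl
  nrm_flip x := by
    funext i
    obtain ⟨z, b⟩ := x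
    cases b <;> simp [nrm, sg]
  D_flip i u hu x := by simp [D, X, Y, e1, e2, dd_flipBool]
  smooth_flip _ hu := hu.flipBool
  fibre_finite := fibre_finite
  laplace_limit x₀ φ hφ := laplace_limit x₀ hφ

theorem cliffordTorus_notTotallyGeodesic : cliffordTorus.NotTotallyGeodesic := by
  refine ⟨((((0 : ℝ) : T), ((0 : ℝ) : T)), true), ne_of_gt ?_⟩
  refine Finset.sum_pos' (fun i _ => Finset.sum_nonneg fun j _ => sq_nonneg _)
    ⟨1, Finset.mem_univ _, ?_⟩
  refine Finset.sum_pos' (fun j _ => sq_nonneg _) ⟨1, Finset.mem_univ _, ?_⟩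
  show 0 < D (1 : Fin 4) (fun y => nrm y (1 : Fin 4)) _ ^ 2
  rw [D, X_nrm, Y_nrm]
  simp [e1, e2, sg, show cosT 0 = 1 by simpa using cosT_coe 0]

end Vale.Agent.P224.Gap.Clifford
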