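import Vale.Agent.P224.Gap.Equator

/-!
# P224: the weight `κ^m Z^2` of the equator and its integrals
-/

namespace Vale.Agent.P224.Gap

open MeasureTheory Filter Topology

/-- The Wronskian weight `κ^m Z(κ)^2`. -/
noncomputable def weight (m : ℕ) (κ : ℝ) : ℝ := κ ^ m * equatorIntegral m κ ^ 2

theorem moment_one_nonneg (k : ℕ) {κ : ℝ} (hκ : 0 ≤ κ) : 0 ≤ moment k 1 κ := by
  have h : moment k 2 κ ≤ moment k 0 κ := by
    refine intervalIntegral.integral_mono_on Real.pi_nonneg
      (Continuous.intervalIntegrable (by fun_prop) _ _)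
      (Continuous.intervalIntegrable (by fun_prop) _ _) fun θ hθ => ?_
    rw [pow_zero]
    exact mul_le_mul_of_nonneg_right (Real.cos_sq_le_one θ)
      (mul_nonneg (Real.exp_pos _).le (pow_nonneg (Real.sin_nonneg_of_mem_Icc hθ) k))
  have := moment_ode k κ
  have hk : (0 : ℝ) ≤ (k : ℝ) := Nat.cast_nonneg k
  nlinarith [mul_nonneg hκ (sub_nonneg.2 h)]

theorem equatorIntegral_pos (m : ℕ) (κ : ℝ) : 0 < equatorIntegral m κ := by
  rw [equatorIntegral_eq]
  exact mul_pos (sphereArea_pos _) (moment_zero_pos _ _)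

theorem equatorIntegral_hasDerivAt (m : ℕ) (κ : ℝ) :
    HasDerivAt (equatorIntegral m) (sphereArea (m - 1) * moment (m - 1) 1 κ) κ := by
  rw [show equatorIntegral m = fun x => sphereArea (m - 1) * moment (m - 1) 0 x from
    funext (equatorIntegral_eq m)]
  exact (moment_hasDerivAt (m - 1) 0 κ).const_mul _

theorem equatorIntegral_monotoneOn (m : ℕ) : MonotoneOn (equatorIntegral m) (Set.Ici 0) := by
  refine monotoneOn_of_hasDerivWithinAt_nonneg (convex_Ici 0)
    (fun κ _ => (equatorIntegral_hasDerivAt m κ).continuousAt.continuousWithinAt)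
    (fun κ _ => (equatorIntegral_hasDerivAt m κ).hasDerivWithinAt) fun κ hκ => ?_
  rw [interior_Ici, Set.mem_Ioi] at hκ
  exact mul_nonneg (sphereArea_pos _).le (moment_one_nonneg _ hκ.le)

theorem weight_continuous (m : ℕ) : Continuous (weight m) := by
  have h : Continuous (equatorIntegral m) :=
    continuous_iff_continuousAt.2 fun κ => (equatorIntegral_hasDerivAt m κ).continuousAt
  unfold weight
  fun_prop

theorem weight_pos (m : ℕ) {κ : ℝ} (hκ : 0 < κ) : 0 < weight m κ :=
  mul_pos (pow_pos hκ m) (pow_pos (equatorIntegral_pos m κ) 2)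

/-- The logarithmic derivative of `weight / ν^j` is close to `2` beyond `500 m`. -/
theorem weight_div_deriv {m : ℕ} (hm : 2 ≤ m) {j : ℕ} (hj : j ≤ 3) {ν : ℝ}
    (hν : 500 * (m : ℝ) ≤ ν) :
    ∃ d, HasDerivAt (fun x => weight m x / x ^ j) d ν ∧
      1992 / 1000 * (weight m ν / ν ^ j) ≤ d ∧ d ≤ 2002 / 1000 * (weight m ν / ν ^ j) := by
  obtain ⟨k, rfl⟩ : ∃ k, m = k + 1 := ⟨m - 1, by omega⟩
  push_cast at hν
  have hk : (1 : ℝ) ≤ (k : ℝ) := by exact_mod_cast (show 1 ≤ k by omega)
  have hj' : (j : ℝ) ≤ 3 := by exact_mod_cast hj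
  have hpos : 0 < ν := by linarith
  set Z := equatorIntegral (k + 1) ν with hZ
  set W := sphereArea k * moment k 1 ν with hW
  have hder : HasDerivAt (equatorIntegral (k + 1)) W ν := equatorIntegral_hasDerivAt (k + 1) ν
  have hd := ((hasDerivAt_pow (k + 1) ν).fun_mul (hder.fun_pow 2)).fun_div (hasDerivAt_pow j ν)
    (pow_ne_zero j hpos.ne')
  refine ⟨_, hd.congr_deriv (g' := ν ^ (k + 1) * Z / ν ^ j *
    ((((k : ℝ) + 1) - (j : ℝ)) / ν * Z + 2 * W)) ?_, ?_, ?_⟩
  · rw [← hZ]
    rcases j with _ | j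
    · simp only [Nat.add_sub_cancel, pow_succ, Nat.cast_add, Nat.cast_one, Nat.cast_zero, pow_zero]
      field_simp
      ring
    · simp only [Nat.add_sub_cancel, pow_succ, Nat.cast_add, Nat.cast_one]
      field_simp
      ring
  all_goals
    have hZ0 : 0 < Z := equatorIntegral_pos _ _
    have hc : 0 ≤ ν ^ (k + 1) * Z / ν ^ j := by positivity
    have e : weight (k + 1) ν / ν ^ j = ν ^ (k + 1) * Z / ν ^ j * Z := by
      rw [weight, ← hZ]; ring
    rw [e, mul_left_comm (_ / 1000 : ℝ)]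
    refine mul_le_mul_of_nonneg_left ?_ hc
    have hZe : Z = sphereArea k * moment k 0 ν := equatorIntegral_eq (k + 1) ν
  · have h1 : (1 - ((k : ℝ) + 2) / ν) * Z ≤ W := by
      rw [hW, hZe, mul_left_comm]
      exact mul_le_mul_of_nonneg_left (moment_one_ge hpos) (sphereArea_pos k).le
    have h2 : -(8 / 1000 : ℝ) ≤ (((k : ℝ) + 1) - (j : ℝ) - 2 * ((k : ℝ) + 2)) / ν := by
      rw [le_div_iff₀ hpos]
      nlinarith
    have h3 := mul_le_mul_of_nonneg_right h2 hZ0.le
    have e3 : (((k : ℝ) + 1) - (j : ℝ) - 2 * ((k : ℝ) + 2)) / ν * Z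
        = (((k : ℝ) + 1) - (j : ℝ)) / ν * Z - 2 * (((k : ℝ) + 2) / ν * Z) := by ring
    linarith
  · have h1 : W ≤ Z := by
      rw [hW, hZe]
      exact mul_le_mul_of_nonneg_left (moment_one_le_zero k ν) (sphereArea_pos k).le
    have h2 : (((k : ℝ) + 1) - (j : ℝ)) / ν ≤ 2 / 1000 := by
      rw [div_le_iff₀ hpos]
      nlinarith [Nat.cast_nonneg (α := ℝ) j]
    nlinarith [mul_le_mul_of_nonneg_right h2 hZ0.le]

theorem weight_div_continuousOn (m j : ℕ) :
    ContinuousOn (fun x => weight m x / x ^ j) (Set.Ioi 0) :=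
  (weight_continuous m).continuousOn.div (by fun_prop) fun x hx =>
    pow_ne_zero j (ne_of_gt (Set.mem_Ioi.1 hx))

/-- `weight / ν^j` grows at least like `exp (1.992 ν)` on `[l/2, l]`. -/
theorem weight_div_growth {m : ℕ} (hm : 2 ≤ m) {j : ℕ} (hj : j ≤ 3) {l : ℝ}
    (hl : 1000 * (m : ℝ) ≤ l) :
    weight m (l / 2) / (l / 2) ^ j * Real.exp (996 / 1000 * l) ≤ weight m l / l ^ j := by
  have hm' : (2 : ℝ) ≤ m := by exact_mod_cast hm
  set c : ℝ := 1992 / 1000 with hc
  have hmem : ∀ x ∈ Set.Icc (l / 2) l, 500 * (m : ℝ) ≤ x := fun x hx => by linarith [hx.1]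
  have hmono : MonotoneOn (fun x => weight m x / x ^ j * Real.exp (-(c * x)))
      (Set.Icc (l / 2) l) := by
    have hcont : ContinuousOn (fun x => weight m x / x ^ j * Real.exp (-(c * x)))
        (Set.Icc (l / 2) l) :=
      ((weight_div_continuousOn m j).mono fun x hx => Set.mem_Ioi.2 (by linarith [hx.1])).mul
        (Continuous.continuousOn (by fun_prop))
    refine monotoneOn_of_deriv_nonneg (convex_Icc _ _) hcont ?_ ?_
    all_goals
      intro x hx
      rw [interior_Icc] at hx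
      obtain ⟨d, hd, h1, -⟩ := weight_div_deriv hm hj (hmem x (Set.Ioo_subset_Icc_self hx))
      have hh : HasDerivAt (fun y => weight m y / y ^ j * Real.exp (-(c * y))) _ x :=
        hd.fun_mul (((hasDerivAt_id' x).const_mul c).neg.exp)
    · exact hh.differentiableAt.differentiableWithinAt
    · rw [hh.deriv]
      have := mul_le_mul_of_nonneg_right h1 (Real.exp_pos (-(c * x))).le
      simp only [Pi.neg_apply]
      linarith
  have h := mul_le_mul_of_nonneg_right (hmono (Set.left_mem_Icc.2 (by linarith))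
    (Set.right_mem_Icc.2 (by linarith)) (by linarith)) (Real.exp_pos (c * l)).le
  simp only [mul_assoc, ← Real.exp_add] at h
  rw [show -(c * l) + c * l = 0 by ring, Real.exp_zero, mul_one] at h
  rwa [show -(c * (l / 2)) + c * l = 996 / 1000 * l by rw [hc]; ring] at h

theorem kernel_upper {m : ℕ} (hm : 2 ≤ m) {l : ℝ} (hl : 1000 * (m : ℝ) ≤ l) {j : ℕ} (hj : j ≤ 3) :
    (∫ ν in (l / 2)..l, weight m ν / ν ^ j) ≤ 504 / 1000 * (weight m l / l ^ j) := by
  have hm' : (2 : ℝ) ≤ m := by exact_mod_cast hm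
  have hle : l / 2 ≤ l := by linarith
  set G := fun x => weight m x / x ^ j
  have hcont : ContinuousOn G (Set.Icc (l / 2) l) :=
    (weight_div_continuousOn m j).mono fun x hx => Set.mem_Ioi.2 (by linarith [hx.1])
  have hd : ∀ x ∈ Set.Ioo (l / 2) l, DifferentiableAt ℝ G x ∧
      1992 / 1000 * G x ≤ deriv G x ∧ deriv G x ≤ 2002 / 1000 * G x := fun x hx => by
    obtain ⟨d, hd, h1, h2⟩ := weight_div_deriv hm hj (show 500 * (m : ℝ) ≤ x by linarith [hx.1])
    rw [hd.deriv]
    exact ⟨hd.differentiableAt, h1, h2⟩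
  have hint := ContinuousOn.integrableOn_Icc (μ := volume) (hcont.const_smul (1992 / 1000 : ℝ))
  have h := intervalIntegral.integral_le_sub_of_hasDeriv_right_of_le hle hcont
    (fun x hx => (hd x hx).1.hasDerivAt.hasDerivWithinAt) hint fun x hx => (hd x hx).2.1
  simp only [Pi.smul_apply, smul_eq_mul, intervalIntegral.integral_const_mul] at h
  have h0 : 0 ≤ G (l / 2) := div_nonneg (weight_pos m (by linarith)).le (pow_nonneg (by linarith) _)
  have h1 : 0 ≤ G l := div_nonneg (weight_pos m (by linarith)).le (pow_nonneg (by linarith) _)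
  show (∫ ν in (l / 2)..l, G ν) ≤ _
  change _ ≤ 504 / 1000 * G l
  linarith

theorem kernel_lower {m : ℕ} (hm : 2 ≤ m) {l : ℝ} (hl : 1000 * (m : ℝ) ≤ l) {j : ℕ} (hj : j ≤ 3) :
    499 / 1000 * (weight m l / l ^ j) ≤ ∫ ν in (l / 2)..l, weight m ν / ν ^ j := by
  have hm' : (2 : ℝ) ≤ m := by exact_mod_cast hm
  have hle : l / 2 ≤ l := by linarith
  set G := fun x => weight m x / x ^ j
  have hcont : ContinuousOn G (Set.Icc (l / 2) l) :=
    (weight_div_continuousOn m j).mono fun x hx => Set.mem_Ioi.2 (by linarith [hx.1])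
  have hd : ∀ x ∈ Set.Ioo (l / 2) l, DifferentiableAt ℝ G x ∧
      1992 / 1000 * G x ≤ deriv G x ∧ deriv G x ≤ 2002 / 1000 * G x := fun x hx => by
    obtain ⟨d, hd, h1, h2⟩ := weight_div_deriv hm hj (show 500 * (m : ℝ) ≤ x by linarith [hx.1])
    rw [hd.deriv]
    exact ⟨hd.differentiableAt, h1, h2⟩
  have hint := ContinuousOn.integrableOn_Icc (μ := volume) (hcont.const_smul (2002 / 1000 : ℝ))
  have h := intervalIntegral.sub_le_integral_of_hasDeriv_right_of_le hle hcont
    (fun x hx => (hd x hx).1.hasDerivAt.hasDerivWithinAt) hint fun x hx => (hd x hx).2.2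
  simp only [Pi.smul_apply, smul_eq_mul, intervalIntegral.integral_const_mul] at h
  have hg : G (l / 2) * Real.exp (996 / 1000 * l) ≤ G l := weight_div_growth hm hj hl
  have h0 : 0 ≤ G (l / 2) := div_nonneg (weight_pos m (by linarith)).le (pow_nonneg (by linarith) _)
  have he : (1993 : ℝ) ≤ Real.exp (996 / 1000 * l) := by
    have := Real.add_one_le_exp (996 / 1000 * l)
    linarith
  have := (mul_le_mul_of_nonneg_left he h0).trans hg
  change 499 / 1000 * G l ≤ ∫ ν in (l / 2)..l, G ν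
  linarith

theorem kernel_head {m : ℕ} (hm : 2 ≤ m) {l : ℝ} (hl : 1000 * (m : ℝ) ≤ l) :
    (∫ ν in (0 : ℝ)..l / 2, ν ^ (m - 2) * equatorIntegral m ν ^ 2) ≤ 24 * weight m l / l ^ 4 := by
  have hm' : (2 : ℝ) ≤ m := by exact_mod_cast hm
  have h2 : 0 < l / 2 := by linarith
  have hl0 : 0 < l := by linarith
  have hc : Continuous (equatorIntegral m) :=
    continuous_iff_continuousAt.2 fun κ => (equatorIntegral_hasDerivAt m κ).continuousAt
  set B := (l / 2) ^ (m - 2) * equatorIntegral m (l / 2) ^ 2 with hB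
  have hA : (∫ ν in (0 : ℝ)..l / 2, ν ^ (m - 2) * equatorIntegral m ν ^ 2) ≤ l / 2 * B := by
    have h := intervalIntegral.integral_mono_on h2.le (μ := volume)
      (f := fun ν => ν ^ (m - 2) * equatorIntegral m ν ^ 2) (g := fun _ => B)
      (Continuous.intervalIntegrable (by fun_prop) _ _) intervalIntegrable_const fun ν hν => by
        exact mul_le_mul (pow_le_pow_left₀ hν.1 hν.2 _)
          (pow_le_pow_left₀ (equatorIntegral_pos m ν).le
            (equatorIntegral_monotoneOn m hν.1 h2.le hν.2) 2)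
          (sq_nonneg _) (pow_nonneg h2.le _)
    simpa using h
  have hw : l / 2 * B * (l / 2) = weight m (l / 2) := by
    rw [hB, weight, show (l / 2) ^ m = (l / 2) ^ (m - 2) * (l / 2) ^ 2 by
      rw [← pow_add, Nat.sub_add_cancel hm]]
    ring
  have hg := weight_div_growth hm (j := 0) (by norm_num) hl
  simp only [pow_zero, div_one] at hg
  have he := Real.pow_div_factorial_le_exp (x := 996 / 1000 * l) (by positivity) 3
  norm_num [Nat.factorial] at he hg
  have hwp := (weight_pos m h2).le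
  have h3 := (mul_le_mul_of_nonneg_left he hwp).trans hg
  have hcube : l ^ 3 / 12 ≤ (996 / 1000 * l) ^ 3 / 6 := by nlinarith [pow_pos hl0 3]
  rw [le_div_iff₀ (by positivity)]
  calc (∫ ν in (0 : ℝ)..l / 2, ν ^ (m - 2) * equatorIntegral m ν ^ 2) * l ^ 4
      ≤ l / 2 * B * l ^ 4 := mul_le_mul_of_nonneg_right hA (by positivity)
    _ = 24 * (weight m (l / 2) * (l ^ 3 / 12)) := by rw [← hw]; ring
    _ ≤ 24 * weight m l := by
        have h4 := mul_le_mul_of_nonneg_left hcube hwp
        norm_num at h4 h3 ⊢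
        nlinarith [h4, h3]

end Vale.Agent.P224.Gap
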