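import Vale.Agent.P224.Gap.TestFun

/-!
# P224: the dimension-free gap `Vol ≥ (1 + 10⁻⁸) |S^m|`
-/

namespace Vale.Agent.P224.Gap

open MeasureTheory Filter Topology
open scoped ContDiff

theorem half_mul_le_iff (c η : ℝ) (h : 1 / 2 * c ≤ 1 + η) : c ≤ 2 * (1 + η) := by linarith

theorem card_le_two {η : ℝ} (hη : η = 1 / 10 ^ 8) {c : ℕ} (h : (c : ℝ) ≤ 2 * (1 + η)) : c ≤ 2 := by
  have h2 : (1 : ℝ) / 10 ^ 8 < 1 / 2 := by norm_num
  have h3 : (c : ℝ) < ((3 : ℕ) : ℝ) := by rw [hη] at h; push_cast; linarith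
  exact Nat.lt_succ_iff.1 (Nat.cast_lt.1 h3)

namespace MinimalImmersion

variable {m : ℕ} {M : Type} [TopologicalSpace M] [MeasurableSpace M] [CompactSpace M] [BorelSpace M]
  (S : MinimalImmersion m M)

/-- A point of maximal curvature through which the profile of the volume is almost constant. -/
structure Near (S : MinimalImmersion m M) (p e : Fin (m + 2) → ℝ) (L η : ℝ) : Prop where
  two_le : 2 ≤ m
  eta_eq : η = 1 / 10 ^ 8
  m_le : (m : ℝ) ≤ L
  unit_p : ∑ i, p i * p i = 1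
  unit_e : ∑ i, e i * e i = 1
  orth : ∑ i, p i * e i = 0
  max_le : ∀ x, S.sffSq x ≤ L
  one : Tendsto (S.profile p fun _ => (1 : ℝ)) atTop (𝓝 1)
  one_le : ∀ l, 0 ≤ l → S.profile p (fun _ => (1 : ℝ)) l ≤ 1 + η
  le_one : ∀ l, 0 ≤ l → 1 ≤ S.profile p (fun _ => (1 : ℝ)) l
  lim_tilt : Tendsto (S.profile p (S.tilt e)) atTop (𝓝 0)
  lim_height : Tendsto (S.profile p (S.height L e)) atTop (𝓝 0)
  lim_sff : Tendsto (S.profile p S.sffSq) atTop (𝓝 L)

variable {S} {p e : Fin (m + 2) → ℝ} {L η : ℝ}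

theorem Near.two_le' (h : S.Near p e L η) : (2 : ℝ) ≤ m := by exact_mod_cast h.two_le

theorem Near.two_le_L (h : S.Near p e L η) : 2 ≤ L := h.two_le'.trans h.m_le

theorem Near.pairing_le (h : S.Near p e L η) {ψ : M → ℝ} (hψ : Continuous ψ) {c : ℝ} (hc : 0 ≤ c)
    (hψc : ∀ x, ψ x ≤ c) {l : ℝ} (hl : 0 ≤ l) :
    S.pairing p ψ l ≤ c * (1 + η) * equatorIntegral m l := by
  have h1 := S.pairing_mono p hψ (continuous_const (y := c * 1)) (fun x => by simpa using hψc x) l
  rw [S.pairing_smul p c (fun _ => (1:ℝ))] at h1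
  have h2 := (div_le_iff₀ (equatorIntegral_pos m l)).1 (h.one_le l hl)
  exact h1.trans ((mul_le_mul_of_nonneg_left h2 hc).trans_eq (by ring))

theorem small_tail {l : ℝ} (hl : 2000 ≤ l) : 24 / l ^ 2 ≤ (1 : ℝ) / 100000 := by
  rw [div_le_div_iff₀ (by positivity) (by norm_num)]; nlinarith

theorem Near.tilt_le (N : S.Near p e L η) :
    ∀ κ, 1000 * L ≤ κ → S.profile p (S.tilt e) κ ≤ η + 102 / 100 * L / κ := by
  have hm := N.two_le
  have hm2 := N.two_le'
  have hL2 := N.two_le_L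
  have hL0 : 0 < L := by linarith
  have hLm := N.m_le
  have hp := N.unit_p
  have he := N.unit_e
  have hη := N.eta_eq
  have P1le := N.one_le
  have hmax := N.max_le
  have a0 := S.sffSq_nonneg
  have sa := S.smooth_sffSq
  have sS := S.smooth_tilt e
  have sφ := S.smooth_height hL0.le e
  have S0 := S.tilt_nonneg he
  have S1 := S.tilt_le_one (e := e)
  have φ0 := S.height_nonneg hL0.le e
  have φL := S.height_le (show 1 ≤ L by linarith) e
  have lapS_le := S.lap_tilt_le he hmax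
  have lapS_ge := S.lap_tilt_ge he hmax
  have lapφ_le := S.lap_height_le he (show 1 ≤ L by linarith)
  have lapφ_ge := S.lap_height_ge he (show 1 ≤ L by linarith)
  have phib := fun x => smallSq_bounds (show (1 : ℝ) ≤ L by linarith) (S.posL e x)
  have cl : ∀ {u : M → ℝ}, S.Smooth u → Continuous (S.lap u) := fun hu => S.cont (S.smooth_lap hu)
  have Ule : ∀ (ψ : M → ℝ) (c : ℝ), Continuous ψ → 0 ≤ c → (∀ x, ψ x ≤ c) → ∀ l, 0 ≤ l →
      S.pairing p ψ l ≤ c * (1 + η) * equatorIntegral m l :=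
    fun ψ c h1 h2 h3 l h4 => N.pairing_le h1 h2 h3 h4
  intro κ hκ
  have h := S.profile_le p hm hp sS (C := 1) (φinf := 0) (a := 102 / 100 * L) (b := 0) S1
    (by nlinarith) (fun l hl => ?_) N.lim_tilt N.one
  · have := P1le κ (by nlinarith)
    simp only [zero_div, add_zero, zero_add, one_mul] at h
    linarith
  have hlm : 1000 * (m : ℝ) ≤ l := by nlinarith
  have h1 := S.lapPart_le p hm (cl sS) hlm (A := 2 * L * (1 + η)) (C := 0)
    (B := 2 * L * (1 + η)) (by positivity) le_rfl (by positivity)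
    (fun ν hν => by simpa using Ule _ _ (cl sS) (by linarith) lapS_le ν (by linarith [hν.1]))
    (fun ν hν => Ule _ _ (cl sS) (by linarith) lapS_le ν hν.1)
  refine h1.trans ?_
  have h2 := small_tail (l := l) (by nlinarith)
  have e1 : 24 * (2 * L * (1 + η)) / l ^ 4 = 2 * L * (1 + η) * (24 / l ^ 2) / l ^ 2 := by ring
  have h3 : 2 * L * (1 + η) * (24 / l ^ 2) ≤ 2 * L * (1 + η) * (1 / 100000) :=
    mul_le_mul_of_nonneg_left h2 (by positivity)
  simp only [mul_zero, zero_div, add_zero, e1, ← add_div]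
  exact div_le_div_of_nonneg_right (by rw [hη] at h3 ⊢; nlinarith) (sq_nonneg l)

theorem Near.sff_ge (N : S.Near p e L η) :
    ∀ κ, 1000 * L ≤ κ → 998 / 1000 * L ≤ S.profile p S.sffSq κ := by
  have hm := N.two_le
  have hm2 := N.two_le'
  have hL2 := N.two_le_L
  have hL0 : 0 < L := by linarith
  have hLm := N.m_le
  have hp := N.unit_p
  have he := N.unit_e
  have hη := N.eta_eq
  have P1le := N.one_le
  have hmax := N.max_le
  have a0 := S.sffSq_nonneg
  have sa := S.smooth_sffSq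
  have sS := S.smooth_tilt e
  have sφ := S.smooth_height hL0.le e
  have S0 := S.tilt_nonneg he
  have S1 := S.tilt_le_one (e := e)
  have φ0 := S.height_nonneg hL0.le e
  have φL := S.height_le (show 1 ≤ L by linarith) e
  have lapS_le := S.lap_tilt_le he hmax
  have lapS_ge := S.lap_tilt_ge he hmax
  have lapφ_le := S.lap_height_le he (show 1 ≤ L by linarith)
  have lapφ_ge := S.lap_height_ge he (show 1 ≤ L by linarith)
  have phib := fun x => smallSq_bounds (show (1 : ℝ) ≤ L by linarith) (S.posL e x)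
  have cl : ∀ {u : M → ℝ}, S.Smooth u → Continuous (S.lap u) := fun hu => S.cont (S.smooth_lap hu)
  have Ule : ∀ (ψ : M → ℝ) (c : ℝ), Continuous ψ → 0 ≤ c → (∀ x, ψ x ≤ c) → ∀ l, 0 ≤ l →
      S.pairing p ψ l ≤ c * (1 + η) * equatorIntegral m l :=
    fun ψ c h1 h2 h3 l h4 => N.pairing_le h1 h2 h3 h4
  intro κ hκ
  have h := S.le_profile p hm hp sa (φinf := L) (a := -(102 / 100 * L ^ 2)) a0 (by nlinarith)
    (fun l hl => ?_) N.lim_sff
  · have : 102 / 100 * L ^ 2 / κ ≤ 2 / 1000 * L := by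
      rw [div_le_iff₀ (by nlinarith)]; nlinarith
    rw [neg_div] at h
    linarith
  have hlm : 1000 * (m : ℝ) ≤ l := by nlinarith
  have hlow : ∀ x, -S.lap S.sffSq x ≤ 2 * L ^ 2 := fun x => by
    nlinarith [S.simons x, a0 x, hmax x]
  have hn : S.lapPart p (fun x => -S.lap S.sffSq x) l = -S.lapPart p (S.lap S.sffSq) l := by
    simp [lapPart, pairing, integral_neg, intervalIntegral.integral_neg, neg_div]
  have h1 := S.lapPart_le p hm (cl sa).neg hlm (A := 2 * L ^ 2 * (1 + η)) (C := 0)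
    (B := 2 * L ^ 2 * (1 + η)) (by positivity) le_rfl (by positivity)
    (fun ν hν => by simpa using Ule _ _ (cl sa).neg (by positivity) hlow ν (by linarith [hν.1]))
    (fun ν hν => Ule _ _ (cl sa).neg (by positivity) hlow ν hν.1)
  rw [show (-S.lap S.sffSq) = fun x => -S.lap S.sffSq x from rfl, hn] at h1
  have h2 := small_tail (l := l) (by nlinarith)
  have e1 : 24 * (2 * L ^ 2 * (1 + η)) / l ^ 4 = 2 * L ^ 2 * (1 + η) * (24 / l ^ 2) / l ^ 2 := by ring
  have h3 : 2 * L ^ 2 * (1 + η) * (24 / l ^ 2) ≤ 2 * L ^ 2 * (1 + η) * (1 / 100000) :=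
    mul_le_mul_of_nonneg_left h2 (by positivity)
  simp only [mul_zero, zero_div, add_zero, e1, ← add_div] at h1
  rw [neg_div, neg_le]
  refine h1.trans (div_le_div_of_nonneg_right ?_ (sq_nonneg l))
  rw [hη] at h3 ⊢; nlinarith [sq_nonneg L]

theorem Near.tilt_ge (N : S.Near p e L η) :
    ∀ κ, 2000 * L ≤ κ → 991 / 1000 * L / κ ≤ S.profile p (S.tilt e) κ := by
  have hm := N.two_le
  have hm2 := N.two_le'
  have hL2 := N.two_le_L
  have hL0 : 0 < L := by linarith
  have hLm := N.m_le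
  have hp := N.unit_p
  have he := N.unit_e
  have hη := N.eta_eq
  have P1le := N.one_le
  have hmax := N.max_le
  have a0 := S.sffSq_nonneg
  have sa := S.smooth_sffSq
  have sS := S.smooth_tilt e
  have sφ := S.smooth_height hL0.le e
  have S0 := S.tilt_nonneg he
  have S1 := S.tilt_le_one (e := e)
  have φ0 := S.height_nonneg hL0.le e
  have φL := S.height_le (show 1 ≤ L by linarith) e
  have lapS_le := S.lap_tilt_le he hmax
  have lapS_ge := S.lap_tilt_ge he hmax
  have lapφ_le := S.lap_height_le he (show 1 ≤ L by linarith)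
  have lapφ_ge := S.lap_height_ge he (show 1 ≤ L by linarith)
  have phib := fun x => smallSq_bounds (show (1 : ℝ) ≤ L by linarith) (S.posL e x)
  have cl : ∀ {u : M → ℝ}, S.Smooth u → Continuous (S.lap u) := fun hu => S.cont (S.smooth_lap hu)
  have Ule : ∀ (ψ : M → ℝ) (c : ℝ), Continuous ψ → 0 ≤ c → (∀ x, ψ x ≤ c) → ∀ l, 0 ≤ l →
      S.pairing p ψ l ≤ c * (1 + η) * equatorIntegral m l :=
    fun ψ c h1 h2 h3 l h4 => N.pairing_le h1 h2 h3 h4
  intro κ hκ
  have h := S.le_profile p hm hp sS (φinf := 0) (a := 991 / 1000 * L) S0 (by nlinarith)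
    (fun l hl => ?_) N.lim_tilt
  · simpa using h
  have hlm : 1000 * (m : ℝ) ≤ l := by nlinarith
  have h1 := S.lapPart_ge p hm (cl sS) hlm (A := 1991 / 1000 * L) (B := 2 * L * (1 + η))
    (by positivity) (by positivity) (fun ν hν => ?_) (fun ν hν => ?_)
  · refine le_trans ?_ h1
    have h2 := small_tail (l := l) (by nlinarith)
    have e1 : 24 * (2 * L * (1 + η)) / l ^ 4 = 2 * L * (1 + η) * (24 / l ^ 2) / l ^ 2 := by ring
    have h3 : 2 * L * (1 + η) * (24 / l ^ 2) ≤ 2 * L * (1 + η) * (1 / 100000) :=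
      mul_le_mul_of_nonneg_left h2 (by positivity)
    rw [e1, ← sub_div]
    exact div_le_div_of_nonneg_right (by rw [hη] at h3 ⊢; nlinarith) (sq_nonneg l)
  · have hν' : 1000 * L ≤ ν := by nlinarith [hν.1]
    have hν0 : 0 < ν := by nlinarith
    have ha := (le_div_iff₀ (equatorIntegral_pos m ν)).1 (N.sff_ge ν hν')
    have hs := (div_le_iff₀ (equatorIntegral_pos m ν)).1 (N.tilt_le ν hν')
    have hq : 102 / 100 * L / ν ≤ 102 / 100000 := by rw [div_le_iff₀ hν0]; nlinarith
    have h2 := S.pairing_mono p (φ := fun x => 2 * S.sffSq x + (-(4 * L)) * (S.tilt e) x)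
      (S.cont (S.smooth_add _ _ (S.smooth_smul 2 sa) (S.smooth_smul _ sS))) (cl sS)
      (fun x => by linarith [(lapS_ge x).1]) ν
    rw [S.pairing_add p (S.cont (S.smooth_smul 2 sa)) (S.cont (S.smooth_smul _ sS)),
      S.pairing_smul, S.pairing_smul] at h2
    have h3 : S.pairing p (S.tilt e) ν ≤ 11 / 10000 * equatorIntegral m ν :=
      hs.trans (mul_le_mul_of_nonneg_right (by rw [hη]; linarith) (equatorIntegral_pos m ν).le)
    nlinarith [mul_le_mul_of_nonneg_left h3 (show (0 : ℝ) ≤ 4 * L by linarith),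
      mul_pos hL0 (equatorIntegral_pos m ν)]
  · have h2 := Ule _ (2 * L) (cl sS).neg (by linarith)
      (fun x => neg_le.1 (lapS_ge x).2) ν hν.1
    have h3 : S.pairing p (-S.lap (S.tilt e)) ν = -S.pairing p (S.lap (S.tilt e)) ν := by
      simp [pairing, integral_neg]
    rw [h3] at h2
    linarith

theorem Near.height_up (N : S.Near p e L η) :
    ∀ κ, 2000 * L ≤ κ →
      S.profile p (S.height L e) κ ≤ η / L + 101 / 100 * η / κ + 53 / 100 * L / κ ^ 2 := by
  have hm := N.two_le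
  have hm2 := N.two_le'
  have hL2 := N.two_le_L
  have hL0 : 0 < L := by linarith
  have hLm := N.m_le
  have hp := N.unit_p
  have he := N.unit_e
  have hη := N.eta_eq
  have P1le := N.one_le
  have hmax := N.max_le
  have a0 := S.sffSq_nonneg
  have sa := S.smooth_sffSq
  have sS := S.smooth_tilt e
  have sφ := S.smooth_height hL0.le e
  have S0 := S.tilt_nonneg he
  have S1 := S.tilt_le_one (e := e)
  have φ0 := S.height_nonneg hL0.le e
  have φL := S.height_le (show 1 ≤ L by linarith) e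
  have lapS_le := S.lap_tilt_le he hmax
  have lapS_ge := S.lap_tilt_ge he hmax
  have lapφ_le := S.lap_height_le he (show 1 ≤ L by linarith)
  have lapφ_ge := S.lap_height_ge he (show 1 ≤ L by linarith)
  have phib := fun x => smallSq_bounds (show (1 : ℝ) ≤ L by linarith) (S.posL e x)
  have cl : ∀ {u : M → ℝ}, S.Smooth u → Continuous (S.lap u) := fun hu => S.cont (S.smooth_lap hu)
  have Ule : ∀ (ψ : M → ℝ) (c : ℝ), Continuous ψ → 0 ≤ c → (∀ x, ψ x ≤ c) → ∀ l, 0 ≤ l →
      S.pairing p ψ l ≤ c * (1 + η) * equatorIntegral m l :=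
    fun ψ c h1 h2 h3 l h4 => N.pairing_le h1 h2 h3 h4
  intro κ hκ
  have h := S.profile_le p hm hp sφ (C := 1 / L) (φinf := 0) (a := 101 / 100 * η)
    (b := 106 / 100 * L) φL (by nlinarith) (fun l hl => ?_) N.lim_height N.one
  · have h1 : 1 / L * (S.profile p (fun _ => 1) κ - 1) ≤ 1 / L * η :=
      mul_le_mul_of_nonneg_left (by linarith [P1le κ (by nlinarith)]) (by positivity)
    have e1 : 1 / L * η = η / L := by ring
    have e2 : 106 / 100 * L / 2 / κ ^ 2 = 53 / 100 * L / κ ^ 2 := by ring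
    linarith
  have hlm : 1000 * (m : ℝ) ≤ l := by nlinarith
  have hl0 : 0 < l := by nlinarith
  have h1 := S.lapPart_le p hm (cl sφ) hlm (A := 2 * η) (C := 204 / 100 * L)
    (B := 2 * (1 + η)) (by positivity) (by positivity) (by positivity) (fun ν hν => ?_)
    (fun ν hν => Ule _ _ (cl sφ) (by norm_num)
      (fun x => (lapφ_le x).trans (by linarith [S1 x])) ν hν.1)
  · refine h1.trans ?_
    have e1 : 24 * (2 * (1 + η)) / l ^ 4 = 24 * (2 * (1 + η)) / l / l ^ 3 := by field_simp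
    have h3 : 24 * (2 * (1 + η)) / l ≤ 25 / 1000 * L := by
      rw [div_le_iff₀ hl0, hη]; nlinarith
    have h4 := div_le_div_of_nonneg_right h3 (pow_nonneg hl0.le 3)
    have h5 : 504 / 1000 * (2 * η) / l ^ 2 ≤ 101 / 100 * η / l ^ 2 :=
      div_le_div_of_nonneg_right (by rw [hη]; norm_num) (sq_nonneg l)
    have h6 : 504 / 1000 * (204 / 100 * L) / l ^ 3 + 25 / 1000 * L / l ^ 3
        ≤ 106 / 100 * L / l ^ 3 := by
      rw [← add_div]; exact div_le_div_of_nonneg_right (by linarith) (pow_nonneg hl0.le 3)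
    rw [e1]; linarith
  · have hν' : 1000 * L ≤ ν := by nlinarith [hν.1]
    have hs := (div_le_iff₀ (equatorIntegral_pos m ν)).1 (N.tilt_le ν hν')
    have h2 := S.pairing_mono p (cl sφ) (ψ := fun x => 2 * (S.tilt e) x)
      (S.cont (S.smooth_smul 2 sS)) lapφ_le ν
    rw [S.pairing_smul] at h2
    calc _ ≤ _ := h2
      _ ≤ 2 * ((η + 102 / 100 * L / ν) * equatorIntegral m ν) := by linarith
      _ = _ := by ring

theorem Near.green_height (N : S.Near p e L η) (κ : ℝ) :
    S.pairing p (S.lap (S.height L e)) κ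
      = κ * S.pairing p (fun x => 2 * S.posL e x / (1 + L * S.posL e x ^ 2) ^ 2 * S.posL e x * S.posL p x) κ
        + κ * S.pairing p (fun x => 2 * S.posL e x / (1 + L * S.posL e x ^ 2) ^ 2 * (S.nrmL p x * S.nrmL e x)) κ := by
  have hL0 : 0 ≤ L := by linarith [N.two_le_L]
  have hΦ := smallSq_contDiff hL0
  have hEx : ContDiff ℝ ∞ fun y : ℝ => Real.exp (κ * y) :=
    Real.contDiff_exp.comp (contDiff_const.mul contDiff_id)
  have sex := S.smooth_comp _ _ (S.smooth_posL p) hEx
  have sφ := S.smooth_height hL0 e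
  have dex : ∀ y, deriv (fun y : ℝ => Real.exp (κ * y)) y = κ * Real.exp (κ * y) := fun y =>
    ((((hasDerivAt_id' y).const_mul κ).exp).congr_deriv (by ring)).deriv
  have cs := S.cont_posL p
  have ce := S.cont_posL e
  have cf := S.cont (S.smooth_nrmL p)
  have cg := S.cont (S.smooth_nrmL e)
  set D1 : M → ℝ := fun x => 2 * S.posL e x / (1 + L * S.posL e x ^ 2) ^ 2 with hD1
  have sD1 : Continuous D1 := by
    have : D1 = fun x => deriv (fun y : ℝ => y ^ 2 / (1 + L * y ^ 2)) (S.posL e x) := by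
      rw [smallSq_deriv hL0]
    rw [this]
    exact S.cont (S.smooth_comp _ _ (S.smooth_posL e) (contDiff_infty_iff_deriv.1 hΦ).2)
  rw [← mul_add, ← S.pairing_add p (φ := fun x => D1 x * S.posL e x * S.posL p x)
    (ψ := fun x => D1 x * (S.nrmL p x * S.nrmL e x)) ((sD1.mul ce).mul cs) (sD1.mul (cf.mul cg))]
  have h := S.green sex sφ
  have gd : ∀ x, S.gdot (fun y => Real.exp (κ * S.posL p y)) (S.height L e) x
      = -(κ * ((D1 x * S.posL e x * S.posL p x + D1 x * (S.nrmL p x * S.nrmL e x))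
          * Real.exp (κ * S.posL p x))) := fun x => by
    rw [S.gdot_comp_left (fun y => Real.exp (κ * y)) (S.smooth_posL p) hEx, dex, S.gdot_comm,
      show S.height L e = fun y => (fun y : ℝ => y ^ 2 / (1 + L * y ^ 2)) (S.posL e y) from rfl,
      S.gdot_comp_left _ (S.smooth_posL e) hΦ, smallSq_deriv hL0, S.gdot_posL,
      show ∑ i, e i * p i = 0 by simpa [mul_comm] using N.orth]
    simp only [hD1]; ring
  simp only [gd, integral_neg, neg_neg, integral_const_mul] at h
  simp only [pairing, mul_comm (S.lap (S.height L e) _)]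
  exact h

theorem Near.cauchy_height (N : S.Near p e L η) (κ t : ℝ) :
    2 * t * S.pairing p (fun x => 2 * S.posL e x / (1 + L * S.posL e x ^ 2) ^ 2 * (S.nrmL p x * S.nrmL e x)) κ
      ≤ 4 * t ^ 2 * S.pairing p (S.height L e) κ + S.pairing p (fun x => S.nrmL p x ^ 2) κ := by
  have hL1 : 1 ≤ L := by linarith [N.two_le_L]
  have hL0 : 0 ≤ L := by linarith
  have hΦ := smallSq_contDiff hL0
  have sφ := S.smooth_height hL0 e
  have φ0 := S.height_nonneg hL0 e
  have S0 := S.tilt_nonneg N.unit_e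
  have phib := fun x => smallSq_bounds hL1 (S.posL e x)
  have cf := S.cont (S.smooth_nrmL p)
  have cg := S.cont (S.smooth_nrmL e)
  set D1 : M → ℝ := fun x => 2 * S.posL e x / (1 + L * S.posL e x ^ 2) ^ 2 with hD1
  have sD1 : Continuous D1 := by
    have : D1 = fun x => deriv (fun y : ℝ => y ^ 2 / (1 + L * y ^ 2)) (S.posL e x) := by
      rw [smallSq_deriv hL0]
    rw [this]
    exact S.cont (S.smooth_comp _ _ (S.smooth_posL e) (contDiff_infty_iff_deriv.1 hΦ).2)
  rw [← S.pairing_smul, ← S.pairing_smul, ← S.pairing_add p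
    (φ := fun x => 4 * t ^ 2 * (S.height L e) x) (S.cont (S.smooth_smul _ sφ))
    (S.cont (S.smooth_sq (S.smooth_nrmL p)))]
  refine S.pairing_mono p (continuous_const.mul (sD1.mul (cf.mul cg)))
    (S.cont (S.smooth_add _ _ (S.smooth_smul _ sφ) (S.smooth_sq (S.smooth_nrmL p))))
    (fun x => ?_) κ
  have hg2 : S.nrmL e x ^ 2 ≤ 1 := sub_nonneg.1 (S0 x)
  rcases phib x with ⟨-, -, -, -, -, -, -, b8⟩ | hy
  · have h1 : (D1 x) ^ 2 ≤ 4 * (S.height L e) x := b8
    simp only [Pi.mul_apply]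
    nlinarith [sq_nonneg (t * D1 x - S.nrmL p x * S.nrmL e x),
      mul_le_mul_of_nonneg_left h1 (sq_nonneg t),
      mul_le_mul_of_nonneg_left hg2 (sq_nonneg (S.nrmL p x))]
  · simp [hD1, hy, height]; positivity

theorem defect_num {L η κ : ℝ} (hL : 0 < L) (hη : η = 1 / 10 ^ 8) (hκ0 : 0 < κ)
    (hκ2 : κ ≤ 5000 * L) : 8 / 10 ^ 5 ≤ 2 * (991 / 1000 * L / κ)
      - 20075 / 10000 * κ * (η / L + 101 / 100 * η / κ + 53 / 100 * L / κ ^ 2) := by
  have e : 2 * (991 / 1000 * L / κ)
      - 20075 / 10000 * κ * (η / L + 101 / 100 * η / κ + 53 / 100 * L / κ ^ 2)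
      = (2 * 991 / 1000 - 20075 / 10000 * 53 / 100) * (L / κ)
        - 20075 / 10000 * η * (κ / L + 101 / 100) := by field_simp; ring
  have h4 : 1 / 5000 ≤ L / κ := by rw [div_le_div_iff₀ (by norm_num) hκ0]; nlinarith
  have h5 : κ / L ≤ 5000 := by rw [div_le_iff₀ hL]; linarith
  rw [e, hη]
  nlinarith

theorem Near.defect_ge (N : S.Near p e L η) :
    ∀ κ ∈ Set.Icc (2000 * L) (5000 * L), 4 / 10 ^ 10 / L ≤ S.profile p (fun x => S.nrmL p x ^ 2) κ := by
  have hm := N.two_le
  have hm2 := N.two_le'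
  have hL2 := N.two_le_L
  have hL0 : 0 < L := by linarith
  have hLm := N.m_le
  have hp := N.unit_p
  have he := N.unit_e
  have hη := N.eta_eq
  have P1le := N.one_le
  have hmax := N.max_le
  have a0 := S.sffSq_nonneg
  have sa := S.smooth_sffSq
  have sS := S.smooth_tilt e
  have sφ := S.smooth_height hL0.le e
  have S0 := S.tilt_nonneg he
  have S1 := S.tilt_le_one (e := e)
  have φ0 := S.height_nonneg hL0.le e
  have φL := S.height_le (show 1 ≤ L by linarith) e
  have lapS_le := S.lap_tilt_le he hmax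
  have lapS_ge := S.lap_tilt_ge he hmax
  have lapφ_le := S.lap_height_le he (show 1 ≤ L by linarith)
  have lapφ_ge := S.lap_height_ge he (show 1 ≤ L by linarith)
  have phib := fun x => smallSq_bounds (show (1 : ℝ) ≤ L by linarith) (S.posL e x)
  have cl : ∀ {u : M → ℝ}, S.Smooth u → Continuous (S.lap u) := fun hu => S.cont (S.smooth_lap hu)
  have Ule : ∀ (ψ : M → ℝ) (c : ℝ), Continuous ψ → 0 ≤ c → (∀ x, ψ x ≤ c) → ∀ l, 0 ≤ l →
      S.pairing p ψ l ≤ c * (1 + η) * equatorIntegral m l :=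
    fun ψ c h1 h2 h3 l h4 => N.pairing_le h1 h2 h3 h4
  have hΦ := smallSq_contDiff hL0.le
  intro κ hκ
  obtain ⟨hκ1, hκ2⟩ := hκ
  have hκ0 : 0 < κ := by nlinarith
  have hZ := equatorIntegral_pos m κ
  set D1 : M → ℝ := fun x => 2 * S.posL e x / (1 + L * S.posL e x ^ 2) ^ 2 with hD1
  have sD1 : Continuous D1 := by
    have : D1 = fun x => deriv (fun y : ℝ => y ^ 2 / (1 + L * y ^ 2)) (S.posL e x) := by
      rw [smallSq_deriv hL0.le]
    rw [this]
    exact S.cont (S.smooth_comp _ _ (S.smooth_posL e) (contDiff_infty_iff_deriv.1 hΦ).2)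
  have cs := S.cont_posL p
  have ce := S.cont_posL e
  have cf := S.cont (S.smooth_nrmL p)
  have cg := S.cont (S.smooth_nrmL e)
  have hid := N.green_height κ
  have hb : S.pairing p (fun x => D1 x * S.posL e x * S.posL p x) κ ≤ 2 * S.pairing p (S.height L e) κ := by
    rw [← S.pairing_smul]
    refine S.pairing_mono p (by fun_prop) (S.cont (S.smooth_smul 2 sφ)) (fun x => ?_) κ
    have hs1 : S.posL p x ≤ 1 := by
      have := S.gdot_self_nonneg (S.posL p) x
      rw [S.gdot_posL, hp] at this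
      nlinarith [sq_nonneg (S.nrmL p x)]
    rcases phib x with ⟨-, -, -, -, -, b6, b7, -⟩ | hy
    · exact (mul_le_of_le_one_right b6 hs1).trans b7
    · simp [hy, height]
  have hlo : 2 * S.pairing p (S.tilt e) κ + -(12 * L + 2 + 2 * m) * S.pairing p (S.height L e) κ
      ≤ S.pairing p (S.lap (S.height L e)) κ := by
    rw [← S.pairing_smul, ← S.pairing_smul, ← S.pairing_add p
      (S.cont (S.smooth_smul _ sS)) (S.cont (S.smooth_smul _ sφ))]
    exact S.pairing_mono p (S.cont (S.smooth_add _ _ (S.smooth_smul _ sS) (S.smooth_smul _ sφ)))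
      (cl sφ) (fun x => by linarith [lapφ_ge x]) κ
  set t : ℝ := 8 / 10 ^ 5 / (5000 * L) / (4 * (15 / 10 ^ 8 / L)) with ht
  have hcs := N.cauchy_height κ t
  have hSd := (le_div_iff₀ hZ).1 (N.tilt_ge κ hκ1)
  have hH := N.height_up κ hκ1
  have hHmax : S.profile p (S.height L e) κ ≤ 15 / 10 ^ 8 / L := by
    refine hH.trans ?_
    have h1 : 101 / 100 * η / κ ≤ 1 / 10 ^ 10 / L := by
      rw [div_le_div_iff₀ hκ0 hL0, hη]; nlinarith
    have h2 : 53 / 100 * L / κ ^ 2 ≤ 1326 / 10 ^ 10 / L := by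
      rw [div_le_div_iff₀ (by positivity) hL0]; nlinarith
    have e : η / L + 1 / 10 ^ 10 / L + 1326 / 10 ^ 10 / L ≤ 15 / 10 ^ 8 / L := by
      rw [← add_div, ← add_div, hη]
      exact div_le_div_of_nonneg_right (by norm_num) hL0.le
    linarith
  have hc : 12 * L + 2 + 2 * (m : ℝ) + 2 * κ ≤ 20075 / 10000 * κ := by nlinarith
  have hφ0 : 0 ≤ S.pairing p (S.height L e) κ := S.pairing_nonneg p φ0 κ
  have key : 8 / 10 ^ 5 * equatorIntegral m κ
      ≤ κ * S.pairing p (fun x => D1 x * (S.nrmL p x * S.nrmL e x)) κ := by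
    have h1 : 2 * S.pairing p (S.tilt e) κ - (12 * L + 2 + 2 * m + 2 * κ) * S.pairing p (S.height L e) κ
        ≤ κ * S.pairing p (fun x => D1 x * (S.nrmL p x * S.nrmL e x)) κ := by
      nlinarith [mul_le_mul_of_nonneg_left hb hκ0.le]
    refine le_trans ?_ h1
    have hU : S.pairing p (S.height L e) κ
        ≤ (η / L + 101 / 100 * η / κ + 53 / 100 * L / κ ^ 2) * equatorIntegral m κ :=
      (div_le_iff₀ hZ).1 hH
    have h2 := mul_le_mul_of_nonneg_left hU (show (0 : ℝ) ≤ 20075 / 10000 * κ by positivity)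
    have h3 := mul_le_mul_of_nonneg_right hc hφ0
    have num := defect_num hL0 hη hκ0 hκ2
    nlinarith [mul_le_mul_of_nonneg_right num hZ.le]
  have hX : 8 / 10 ^ 5 / (5000 * L)
      ≤ S.pairing p (fun x => D1 x * (S.nrmL p x * S.nrmL e x)) κ / equatorIntegral m κ := by
    rw [div_le_div_iff₀ (by positivity) hZ]
    have : 0 ≤ S.pairing p (fun x => D1 x * (S.nrmL p x * S.nrmL e x)) κ :=
      nonneg_of_mul_nonneg_right (le_trans (by positivity) key) hκ0
    nlinarith [mul_le_mul_of_nonneg_right hκ2 this]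
  have hcs' := div_le_div_of_nonneg_right hcs hZ.le
  rw [add_div, mul_div_assoc, mul_div_assoc] at hcs'
  have ht0 : 0 ≤ t := by rw [ht]; positivity
  have hA := mul_le_mul_of_nonneg_left hX (by positivity : (0 : ℝ) ≤ 2 * t)
  have hB := mul_le_mul_of_nonneg_left (show S.pairing p (S.height L e) κ / equatorIntegral m κ
    ≤ 15 / 10 ^ 8 / L from hHmax) (by positivity : (0 : ℝ) ≤ 4 * t ^ 2)
  have hval : 4 / 10 ^ 10 / L ≤ 2 * t * (8 / 10 ^ 5 / (5000 * L)) - 4 * t ^ 2 * (15 / 10 ^ 8 / L) := by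
    have e : 2 * t * (8 / 10 ^ 5 / (5000 * L)) - 4 * t ^ 2 * (15 / 10 ^ 8 / L)
        = (8 / 10 ^ 5 / 5000) ^ 2 / (4 * (15 / 10 ^ 8)) / L := by
      rw [ht]; field_simp; ring
    rw [e]
    exact div_le_div_of_nonneg_right (by norm_num) hL0.le
  simp only [profile]
  linarith

theorem Near.false_of (N : S.Near p e L η) : False := by
  have hm := N.two_le
  have hm2 := N.two_le'
  have hL2 := N.two_le_L
  have hL0 : 0 < L := by linarith
  have hLm := N.m_le
  have hp := N.unit_p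
  have he := N.unit_e
  have hη := N.eta_eq
  have P1le := N.one_le
  have hmax := N.max_le
  have a0 := S.sffSq_nonneg
  have sa := S.smooth_sffSq
  have sS := S.smooth_tilt e
  have sφ := S.smooth_height hL0.le e
  have S0 := S.tilt_nonneg he
  have S1 := S.tilt_le_one (e := e)
  have φ0 := S.height_nonneg hL0.le e
  have φL := S.height_le (show 1 ≤ L by linarith) e
  have lapS_le := S.lap_tilt_le he hmax
  have lapS_ge := S.lap_tilt_ge he hmax
  have lapφ_le := S.lap_height_le he (show 1 ≤ L by linarith)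
  have lapφ_ge := S.lap_height_ge he (show 1 ≤ L by linarith)
  have phib := fun x => smallSq_bounds (show (1 : ℝ) ≤ L by linarith) (S.posL e x)
  have cl : ∀ {u : M → ℝ}, S.Smooth u → Continuous (S.lap u) := fun hu => S.cont (S.smooth_lap hu)
  have Ule : ∀ (ψ : M → ℝ) (c : ℝ), Continuous ψ → 0 ≤ c → (∀ x, ψ x ≤ c) → ∀ l, 0 ≤ l →
      S.pairing p ψ l ≤ c * (1 + η) * equatorIntegral m l :=
    fun ψ c h1 h2 h3 l h4 => N.pairing_le h1 h2 h3 h4
  have hwd : S.withDefect p (fun _ => (1 : ℝ)) = fun x => S.nrmL p x ^ 2 :=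
    funext fun x => one_mul _
  have hdrop : ∀ l ∈ Set.Icc (4000 * L) (5000 * L),
      19 / 10 ^ 11 / L ≤ S.drop p (fun _ => 1) l := fun l hl => by
    obtain ⟨hl1, hl2⟩ := hl
    have hl0 : 0 < l := by nlinarith
    have hlm : 1000 * (m : ℝ) ≤ l := by nlinarith
    rw [S.drop_eq p (S.smooth_const 1)]
    have hz : S.lapPart p (S.lap fun _ => (1 : ℝ)) l = 0 := by simp [lapPart, pairing, S.lap_const]
    rw [hz, add_zero, le_div_iff₀ (weight_pos m hl0), hwd]
    have cE := S.pairing_continuous p (S.cont (S.smooth_sq (S.smooth_nrmL p)))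
    have cZ := equatorIntegral_continuous (m := m)
    have hi : ∀ a b : ℝ, IntervalIntegrable (fun ν => ν ^ (m - 2) * equatorIntegral m ν *
        (ν ^ 2 * S.pairing p (fun x => S.nrmL p x ^ 2) ν)) volume a b := fun a b =>
      Continuous.intervalIntegrable (by fun_prop) _ _
    rw [← intervalIntegral.integral_add_adjacent_intervals (hi 0 (l / 2)) (hi (l / 2) l)]
    have h1 : 0 ≤ ∫ ν in (0 : ℝ)..l / 2, ν ^ (m - 2) * equatorIntegral m ν *
        (ν ^ 2 * S.pairing p (fun x => S.nrmL p x ^ 2) ν) :=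
      intervalIntegral.integral_nonneg (by linarith) fun ν hν => mul_nonneg
        (mul_nonneg (pow_nonneg hν.1 _) (equatorIntegral_pos m ν).le)
        (mul_nonneg (sq_nonneg _) (S.pairing_nonneg p (fun x => sq_nonneg _) ν))
    have h2 : ∫ ν in (l / 2)..l, 4 / 10 ^ 10 / L * weight m ν
        ≤ ∫ ν in (l / 2)..l, ν ^ (m - 2) * equatorIntegral m ν *
        (ν ^ 2 * S.pairing p (fun x => S.nrmL p x ^ 2) ν) := by
      refine intervalIntegral.integral_mono_on (by linarith)
        (((weight_continuous m).const_mul _).intervalIntegrable _ _) (hi _ _) fun ν hν => ?_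
      have hν0 : 0 < ν := by linarith [hν.1]
      have := mul_le_mul_of_nonneg_left
        ((le_div_iff₀ (equatorIntegral_pos m ν)).1
          (N.defect_ge ν ⟨by linarith [hν.1], by linarith [hν.2]⟩))
        (mul_nonneg (mul_nonneg (pow_nonneg hν0.le (m - 2)) (equatorIntegral_pos m ν).le)
          (sq_nonneg ν))
      refine le_of_eq_of_le ?_ (this.trans_eq (by ring))
      rw [weight, show ν ^ m = ν ^ (m - 2) * ν ^ 2 by rw [← pow_add, Nat.sub_add_cancel hm]]
      ring
    have h3 := kernel_lower hm hlm (j := 0) (by norm_num)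
    simp only [pow_zero, div_one] at h3
    rw [intervalIntegral.integral_const_mul] at h2
    have h4 := mul_le_mul_of_nonneg_left h3 (by positivity : (0 : ℝ) ≤ 4 / 10 ^ 10 / L)
    have h5 : 19 / 10 ^ 11 / L * weight m l ≤ 4 / 10 ^ 10 / L * (499 / 1000 * weight m l) := by
      have := mul_pos (div_pos one_pos hL0) (weight_pos m hl0)
      ring_nf at this ⊢
      linarith
    linarith
  have hmvt : S.profile p (fun _ => (1 : ℝ)) (5000 * L) - S.profile p (fun _ => (1 : ℝ)) (4000 * L)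
      ≤ -(19 / 10 ^ 11 / L) * (5000 * L - 4000 * L) := by
    refine Convex.image_sub_le_mul_sub_of_deriv_le (D := Set.Icc (4000 * L) (5000 * L))
      (convex_Icc _ _) ?_ ?_ ?_ _ ⟨le_rfl, by linarith⟩ _ ⟨by linarith, le_rfl⟩ (by linarith)
    · exact fun l hl => (S.wronskian p hp (S.smooth_const 1) hm
        (by nlinarith [hl.1])).continuousAt.continuousWithinAt
    · exact fun l hl => (S.wronskian p hp (S.smooth_const 1) hm
        (by rw [interior_Icc] at hl; nlinarith [hl.1])).differentiableAt.differentiableWithinAt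
    · intro l hl
      rw [interior_Icc] at hl
      rw [(S.wronskian p hp (S.smooth_const 1) hm (by nlinarith [hl.1])).deriv]
      exact neg_le_neg (hdrop l ⟨hl.1.le, hl.2.le⟩)
  have e1 : -(19 / 10 ^ 11 / L) * (5000 * L - 4000 * L) = -(19 / 10 ^ 8) := by field_simp; ring
  have h1 := P1le (4000 * L) (by positivity)
  have h2 := N.le_one (5000 * L) (by positivity)
  rw [e1] at hmvt
  rw [hη] at h1
  linarith


open scoped Classical in
omit [CompactSpace M] [BorelSpace M] in
theorem tendsto_profile_pair {x₀ : M} (hfib : (S.fibre_finite x₀).toFinset = {x₀, S.flip x₀} )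
    {φ : M → ℝ} (hφ : Continuous φ) :
    Tendsto (S.profile (S.pos x₀) φ) atTop (𝓝 ((φ x₀ + φ (S.flip x₀)) / 2)) := by
  have h := S.laplace_limit x₀ φ hφ
  rw [hfib, Finset.sum_pair (S.flip_ne x₀).symm] at h
  convert h using 2 with κ
  · rfl
  · ring

variable (S)

theorem le_max_sffSq (hm : 2 ≤ m) {L : ℝ} (hmax : ∀ x, S.sffSq x ≤ L) {z : M} (hz : S.sffSq z ≠ 0) :
    (m : ℝ) ≤ L := by
  haveI := S.finite_vol
  have sa := S.smooth_sffSq
  have a0 := S.sffSq_nonneg
  have lapmean : ∫ x, S.lap S.sffSq x ∂S.vol = 0 := by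
    have h := S.green (S.smooth_const 1) sa
    simpa [gdot, S.D_const] using h
  by_contra hlt
  push Not at hlt
  have ia : Integrable S.sffSq S.vol := S.integrable_of_smooth (S.cont sa)
  have h1 : ∫ x, 2 * ((m : ℝ) - L) * S.sffSq x ∂S.vol ≤ 0 := by
    rw [← lapmean]
    refine integral_mono (ia.const_mul _) (S.integrable_of_smooth (S.cont (S.smooth_lap sa)))
      fun x => le_trans ?_ (S.simons x)
    nlinarith [a0 x, hmax x]
  rw [integral_const_mul] at h1
  have h2 : ∫ x, S.sffSq x ∂S.vol = 0 :=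
    le_antisymm (nonpos_of_mul_nonpos_right h1 (by linarith))
      (integral_nonneg a0)
  have h3 : ∀ᵐ x ∂S.vol, S.sffSq x = 0 := (integral_eq_zero_iff_of_nonneg a0 ia).1 h2
  have h4 := S.laplace_limit z S.sffSq (S.cont sa)
  have h5 : (fun κ => (∫ x, S.sffSq x * Real.exp (κ * ∑ i, S.pos x i * S.pos z i) ∂S.vol) /
      equatorIntegral m κ) = fun _ => 0 := funext fun κ => by
    rw [integral_eq_zero_of_ae (h3.mono fun x hx => by simp [hx]), zero_div]
  rw [h5] at h4
  have h6 := tendsto_nhds_unique tendsto_const_nhds h4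
  have h7 : S.sffSq z ≤ ∑ x ∈ (S.fibre_finite z).toFinset, S.sffSq x :=
    Finset.single_le_sum (fun x _ => a0 x) (by simp)
  exact hz (le_antisymm (by linarith) (a0 z))

/-- The dimension-free gap. -/
theorem gap (hm : 2 ≤ m) (hnt : S.NotTotallyGeodesic) :
    (1 + 1 / 10 ^ 8) * sphereArea m ≤ (S.vol Set.univ).toReal := by
  haveI := S.finite_vol
  obtain ⟨z, hz⟩ := hnt
  obtain ⟨x₀, -, hx₀⟩ := isCompact_univ.exists_isMaxOn ⟨z, Set.mem_univ z⟩
    (S.cont S.smooth_sffSq).continuousOn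
  have hmax : ∀ x, S.sffSq x ≤ S.sffSq x₀ := fun x => hx₀ (Set.mem_univ x)
  have hp : ∑ i, (S.pos x₀) i * (S.pos x₀) i = 1 := S.pos_pos x₀
  have P0 : S.profile (S.pos x₀) (fun _ => (1 : ℝ)) 0 = (S.vol Set.univ).toReal / sphereArea m := by
    simp [profile, pairing, equatorIntegral_zero (show 1 ≤ m by omega), Measure.real]
  have hanti := S.profile_one_antitone (S.pos x₀) hm hp
  by_contra hcon
  push Not at hcon
  set η : ℝ := 1 / 10 ^ 8 with hη
  have hθ : S.profile (S.pos x₀) (fun _ => (1 : ℝ)) 0 ≤ 1 + η := by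
    rw [P0, div_le_iff₀ (sphereArea_pos m)]
    linarith
  have P1le : ∀ l, 0 ≤ l → S.profile (S.pos x₀) (fun _ => (1 : ℝ)) l ≤ 1 + η := fun l hl =>
    (hanti Set.self_mem_Ici hl hl).trans hθ
  classical
  have hsub : ({x₀, S.flip x₀} : Finset M) ⊆ (S.fibre_finite x₀).toFinset := by
    intro x hx
    simp only [Finset.mem_insert, Finset.mem_singleton] at hx
    rcases hx with rfl | rfl <;> simp [S.pos_flip]
  have hone' : Tendsto (S.profile (S.pos x₀) fun _ => (1 : ℝ)) atTop
      (𝓝 ((1 / 2) * ((S.fibre_finite x₀).toFinset.card : ℝ))) := by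
    have := S.laplace_limit x₀ (fun _ => 1) continuous_const
    rw [Finset.sum_const, nsmul_eq_mul, mul_one] at this
    exact this
  have hcard : ((S.fibre_finite x₀).toFinset.card : ℝ) ≤ 2 * (1 + η) := by
    exact half_mul_le_iff _ _ (le_of_tendsto hone' (eventually_atTop.2 ⟨0, P1le⟩))
  have hfib : (S.fibre_finite x₀).toFinset = {x₀, S.flip x₀} := by
    refine (Finset.eq_of_subset_of_card_le hsub ?_).symm
    rw [Finset.card_pair (S.flip_ne x₀).symm]
    exact card_le_two hη hcard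
  have lim2 := fun (φ : M → ℝ) (hφ : Continuous φ) => tendsto_profile_pair hfib hφ
  have hone : Tendsto (S.profile (S.pos x₀) fun _ => (1 : ℝ)) atTop (𝓝 1) := by
    convert lim2 (fun _ => 1) continuous_const using 2; norm_num
  have P1ge : ∀ l, 0 ≤ l → 1 ≤ S.profile (S.pos x₀) (fun _ => (1 : ℝ)) l := fun l hl =>
    le_of_tendsto hone (eventually_atTop.2 ⟨l, fun y hy => hanti hl (hl.trans hy : (0:ℝ) ≤ y) hy⟩)
  have g0 : S.nrmL (S.nrm x₀) x₀ = 1 := S.nrm_nrm x₀
  have h0 : S.posL (S.nrm x₀) x₀ = 0 := S.pos_nrm x₀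
  have g1 : S.nrmL (S.nrm x₀) (S.flip x₀) = -1 := by
    simp only [nrmL, S.nrm_flip, Pi.neg_apply, neg_mul, Finset.sum_neg_distrib]
    rw [show ∑ i, S.nrm x₀ i * (S.nrm x₀) i = 1 from S.nrm_nrm x₀]
  have h1 : S.posL (S.nrm x₀) (S.flip x₀) = 0 := by simp only [posL, S.pos_flip]; exact S.pos_nrm x₀
  have hLm := S.le_max_sffSq hm hmax hz
  have hL0 : 0 ≤ S.sffSq x₀ := S.sffSq_nonneg x₀
  refine Near.false_of (S := S) (p := S.pos x₀) (e := S.nrm x₀) (L := S.sffSq x₀) (η := η)
    ⟨hm, rfl, hLm, hp, S.nrm_nrm x₀, S.pos_nrm x₀, hmax, hone, P1le, P1ge, ?_, ?_, ?_⟩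
  · convert lim2 _ (S.cont (S.smooth_tilt (S.nrm x₀))) using 2; simp [tilt, g0, g1]
  · convert lim2 _ (S.cont (S.smooth_height hL0 (S.nrm x₀))) using 2; simp [height, h0, h1]
  · convert lim2 _ (S.cont S.smooth_sffSq) using 2; rw [S.sffSq_flip]; ring

end MinimalImmersion

end Vale.Agent.P224.Gap
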