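import Vale.Agent.P224.Gap.Equator
import Vale.Agent.P224.Gap.Calculus
import Vale.Agent.P224.Gap.Kernel

/-!
# P224: exponential profiles of functions on the hypersurface and their exact evolution
-/

namespace Vale.Agent.P224.Gap

open MeasureTheory Filter Topology
open scoped ContDiff

namespace MinimalImmersion

variable {m : ℕ} {M : Type} [TopologicalSpace M] [MeasurableSpace M] (S : MinimalImmersion m M)
variable (p : Fin (m + 2) → ℝ)

/-- `∫ φ exp (κ ⟨F, p⟩)`. -/
noncomputable def pairing (φ : M → ℝ) (κ : ℝ) : ℝ :=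
  ∫ x, φ x * Real.exp (κ * S.posL p x) ∂S.vol

/-- The normalised pairing. -/
noncomputable def profile (φ : M → ℝ) (κ : ℝ) : ℝ := S.pairing p φ κ / equatorIntegral m κ

/-- `φ f²`. -/
def withDefect (φ : M → ℝ) (x : M) : ℝ := φ x * S.nrmL p x ^ 2

/-- The source of the Wronskian. -/
noncomputable def source (φ : M → ℝ) (ν : ℝ) : ℝ :=
  ν ^ (m - 2) * equatorIntegral m ν *
    (ν ^ 2 * S.pairing p (S.withDefect p φ) ν + S.pairing p (S.lap φ) ν)

/-- Minus the derivative of the profile. -/
noncomputable def drop (φ : M → ℝ) (κ : ℝ) : ℝ :=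
  (∫ ν in (0 : ℝ)..κ, S.source p φ ν) / weight m κ

/-- The Laplacian part of `drop`. -/
noncomputable def lapPart (ψ : M → ℝ) (κ : ℝ) : ℝ :=
  (∫ ν in (0 : ℝ)..κ, ν ^ (m - 2) * equatorIntegral m ν * S.pairing p ψ ν) / weight m κ

theorem smooth_lap {u : M → ℝ} (hu : S.Smooth u) : S.Smooth (S.lap u) :=
  S.smooth_sum _ _ fun i => S.smooth_D i _ (S.smooth_D i u hu)

theorem smooth_sq {u : M → ℝ} (hu : S.Smooth u) : S.Smooth fun x => u x ^ 2 := by
  simpa only [sq] using S.smooth_mul _ _ hu hu

theorem smooth_withDefect {φ : M → ℝ} (hφ : S.Smooth φ) : S.Smooth (S.withDefect p φ) :=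
  S.smooth_mul _ _ hφ (S.smooth_sq (S.smooth_nrmL p))

theorem cont {u : M → ℝ} (hu : S.Smooth u) : Continuous u := S.smooth_continuous u hu

theorem cont_posL : Continuous (S.posL p) := S.cont (S.smooth_posL p)

theorem lap_const (c : ℝ) (x : M) : S.lap (fun _ => c) x = 0 := by
  have e : ∀ i, S.D i (fun _ : M => c) = fun _ => (0 : ℝ) := fun i => funext (S.D_const i c)
  simp [lap, e, S.D_const]

variable [CompactSpace M] [BorelSpace M]

theorem integrable_pairing {φ : M → ℝ} (hφ : Continuous φ) (κ : ℝ) :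
    Integrable (fun x => φ x * Real.exp (κ * S.posL p x)) S.vol :=
  S.integrable_of_smooth (hφ.mul (Real.continuous_exp.comp (continuous_const.mul (S.cont_posL p))))

theorem pairing_mono {φ ψ : M → ℝ} (hφ : Continuous φ) (hψ : Continuous ψ) (h : ∀ x, φ x ≤ ψ x)
    (κ : ℝ) : S.pairing p φ κ ≤ S.pairing p ψ κ :=
  integral_mono (S.integrable_pairing p hφ κ) (S.integrable_pairing p hψ κ) fun x =>
    mul_le_mul_of_nonneg_right (h x) (Real.exp_pos _).le

theorem pairing_nonneg {φ : M → ℝ} (h : ∀ x, 0 ≤ φ x) (κ : ℝ) : 0 ≤ S.pairing p φ κ :=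
  integral_nonneg fun x => mul_nonneg (h x) (Real.exp_pos _).le

theorem pairing_smul (c : ℝ) (φ : M → ℝ) (κ : ℝ) :
    S.pairing p (fun x => c * φ x) κ = c * S.pairing p φ κ := by
  simp only [pairing, mul_assoc, integral_const_mul]

theorem pairing_add {φ ψ : M → ℝ} (hφ : Continuous φ) (hψ : Continuous ψ) (κ : ℝ) :
    S.pairing p (fun x => φ x + ψ x) κ = S.pairing p φ κ + S.pairing p ψ κ := by
  simp only [pairing, add_mul]
  exact integral_add (S.integrable_pairing p hφ κ) (S.integrable_pairing p hψ κ)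

theorem pairing_hasDerivAt {φ : M → ℝ} (hφ : Continuous φ) (κ : ℝ) :
    HasDerivAt (S.pairing p φ) (S.pairing p (fun x => φ x * S.posL p x) κ) κ := by
  have hs := S.cont_posL p
  have hcF : ∀ y : ℝ, Continuous fun x => φ x * Real.exp (y * S.posL p x) := fun y => by fun_prop
  have hb : Continuous fun x =>
      |φ x * S.posL p x| * Real.exp ((|κ| + 1) * |S.posL p x|) := by fun_prop
  have h := hasDerivAt_integral_of_dominated_loc_of_deriv_le (𝕜 := ℝ) (μ := S.vol)
    (s := Metric.ball κ 1) (x₀ := κ)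
    (F := fun y x => φ x * Real.exp (y * S.posL p x))
    (F' := fun y x => φ x * S.posL p x * Real.exp (y * S.posL p x))
    (bound := fun x => |φ x * S.posL p x| * Real.exp ((|κ| + 1) * |S.posL p x|))
    (Metric.ball_mem_nhds κ one_pos)
    (Eventually.of_forall fun y => (S.integrable_of_smooth (hcF y)).aestronglyMeasurable)
    (S.integrable_of_smooth (hcF κ))
    ((S.integrable_of_smooth (u := fun x => φ x * S.posL p x * Real.exp (κ * S.posL p x))
      (by fun_prop)).aestronglyMeasurable)
    (Eventually.of_forall fun x y hy => by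
      rw [Real.norm_eq_abs, abs_mul, Real.abs_exp]
      refine mul_le_mul_of_nonneg_left (Real.exp_le_exp.2 ?_) (abs_nonneg _)
      have hy' : |y| ≤ |κ| + 1 := by
        have : |y - κ| < 1 := by simpa [Real.dist_eq] using hy
        have := abs_sub_abs_le_abs_sub y κ
        linarith
      calc y * S.posL p x ≤ |y * S.posL p x| := le_abs_self _
        _ = |y| * |S.posL p x| := abs_mul _ _
        _ ≤ (|κ| + 1) * |S.posL p x| := by gcongr)
    (S.integrable_of_smooth hb)
    (Eventually.of_forall fun x y _ => by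
      have h1 : HasDerivAt (fun y : ℝ => Real.exp (y * S.posL p x))
          (Real.exp (y * S.posL p x) * S.posL p x) y := by
        simpa using ((hasDerivAt_id y).mul_const (S.posL p x)).exp
      exact (h1.const_mul (φ x)).congr_deriv (by ring))
  exact h.2

theorem pairing_continuous {φ : M → ℝ} (hφ : Continuous φ) : Continuous (S.pairing p φ) :=
  continuous_iff_continuousAt.2 fun κ => (S.pairing_hasDerivAt p hφ κ).continuousAt

theorem source_continuous {φ : M → ℝ} (hφ : S.Smooth φ) : Continuous (S.source p φ) := by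
  have h1 := S.pairing_continuous p (S.cont (S.smooth_withDefect p hφ))
  have h2 := S.pairing_continuous p (S.cont (S.smooth_lap hφ))
  have h3 : Continuous (equatorIntegral m) := by
    rw [funext (equatorIntegral_eq m)]; exact continuous_const.mul (moment_continuous _ _)
  unfold source
  fun_prop

variable (hp : ∑ i, p i * p i = 1)
include hp

/-- The second-order identity behind the monotonicity formula. -/
theorem pairing_ode {φ : M → ℝ} (hφ : S.Smooth φ) (κ : ℝ) :
    κ ^ 2 * (S.pairing p φ κ - S.pairing p (fun x => φ x * S.posL p x * S.posL p x) κ)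
      - κ * m * S.pairing p (fun x => φ x * S.posL p x) κ
      = κ ^ 2 * S.pairing p (S.withDefect p φ) κ + S.pairing p (S.lap φ) κ := by
  have hΦ : ContDiff ℝ ∞ fun y : ℝ => Real.exp (κ * y) :=
    Real.contDiff_exp.comp (contDiff_const.mul contDiff_id)
  have he := S.smooth_comp _ _ (S.smooth_posL p) hΦ
  have hd : ∀ y, HasDerivAt (fun y : ℝ => Real.exp (κ * y)) (κ * Real.exp (κ * y)) y := fun y =>
    (((hasDerivAt_id' y).const_mul κ).exp).congr_deriv (by ring)
  have d1 : deriv (fun y : ℝ => Real.exp (κ * y)) = fun y => κ * Real.exp (κ * y) :=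
    funext fun y => (hd y).deriv
  have d2 : ∀ y, deriv (deriv fun y : ℝ => Real.exp (κ * y)) y = κ ^ 2 * Real.exp (κ * y) := by
    intro y
    rw [d1, ((hd y).const_mul κ).deriv]; ring
  have hl : ∀ x, S.lap (fun y => Real.exp (κ * S.posL p y)) x
      = κ ^ 2 * (1 - S.posL p x * S.posL p x - S.nrmL p x ^ 2) * Real.exp (κ * S.posL p x)
        - κ * m * (S.posL p x * Real.exp (κ * S.posL p x)) := fun x => by
    rw [S.lap_comp (fun y => Real.exp (κ * y)) (S.smooth_posL p) hΦ, d2, d1, S.lap_posL,
      S.gdot_posL, hp]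
    ring
  have hg := S.green_comm hφ he
  simp only [hl] at hg
  have hs := S.cont_posL p
  have hc := S.cont hφ
  have hn := S.cont (S.smooth_nrmL p)
  have i0 := S.integrable_pairing p hc κ
  have i1 := S.integrable_pairing p (φ := fun x => φ x * S.posL p x) (by fun_prop) κ
  have i2 := S.integrable_pairing p (φ := fun x => φ x * S.posL p x * S.posL p x) (by fun_prop) κ
  have i3 := S.integrable_pairing p (φ := S.withDefect p φ)
    (by unfold withDefect; fun_prop) κ
  have e : ∀ x, φ x * (κ ^ 2 * (1 - S.posL p x * S.posL p x - S.nrmL p x ^ 2)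
        * Real.exp (κ * S.posL p x) - κ * m * (S.posL p x * Real.exp (κ * S.posL p x)))
      = κ ^ 2 * (φ x * Real.exp (κ * S.posL p x)
          - φ x * S.posL p x * S.posL p x * Real.exp (κ * S.posL p x))
        - κ * m * (φ x * S.posL p x * Real.exp (κ * S.posL p x))
        - κ ^ 2 * (S.withDefect p φ x * Real.exp (κ * S.posL p x)) := fun x => by
    simp only [withDefect]; ring
  have a02 := i0.sub' i2
  simp only [e] at hg
  rw [integral_sub ((a02.const_mul _).sub' (i1.const_mul _)) (i3.const_mul _),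
    integral_sub (a02.const_mul _) (i1.const_mul _), integral_const_mul, integral_const_mul,
    integral_const_mul, integral_sub i0 i2] at hg
  simp only [pairing]
  linarith

theorem wronskian {φ : M → ℝ} (hφ : S.Smooth φ) (hm : 2 ≤ m) {κ : ℝ} (hκ : 0 < κ) :
    HasDerivAt (S.profile p φ) (-S.drop p φ κ) κ := by
  obtain ⟨n, rfl⟩ : ∃ n, m = n + 2 := ⟨m - 2, by omega⟩
  set c := sphereArea (n + 1) with hc
  have hcp : 0 < c := sphereArea_pos _
  have hZ : ∀ ν, equatorIntegral (n + 2) ν = c * moment (n + 1) 0 ν := fun ν => equatorIntegral_eq _ _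
  have hcont := S.cont hφ
  have hs := S.cont_posL p
  set U0 := S.pairing p φ
  set U1 := S.pairing p fun x => φ x * S.posL p x
  set U2 := S.pairing p fun x => φ x * S.posL p x * S.posL p x
  have dU0 : ∀ ν, HasDerivAt U0 (U1 ν) ν := S.pairing_hasDerivAt p hcont
  have dU1 : ∀ ν, HasDerivAt U1 (U2 ν) ν :=
    S.pairing_hasDerivAt p (φ := fun x => φ x * S.posL p x) (by fun_prop)
  set Wr := fun ν => ν ^ (n + 2) * (U1 ν * (c * moment (n + 1) 0 ν) - U0 ν * (c * moment (n + 1) 1 ν))
  have dW : ∀ ν ∈ Set.uIcc 0 κ, HasDerivAt Wr (-S.source p φ ν) ν := by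
    intro ν _
    have := (hasDerivAt_pow (n + 2) ν).mul (((dU1 ν).mul ((moment_hasDerivAt (n + 1) 0 ν).const_mul c)).sub
      ((dU0 ν).mul ((moment_hasDerivAt (n + 1) 1 ν).const_mul c)))
    refine this.congr_deriv ?_
    have hode := S.pairing_ode p hp hφ ν
    have hz := moment_ode (n + 1) ν
    simp only [source, hZ, Nat.add_sub_cancel, Pi.mul_apply, Pi.sub_apply]
    push_cast at hode hz ⊢
    linear_combination (-(ν ^ n * (c * moment (n + 1) 0 ν))) * hode
      - (ν ^ (n + 1) * U0 ν * c) * hz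
  have hW := intervalIntegral.integral_eq_sub_of_hasDerivAt dW
    ((S.source_continuous p hφ).neg.intervalIntegrable _ _)
  have hW0 : Wr 0 = 0 := by simp [Wr]
  rw [intervalIntegral.integral_neg, hW0, sub_zero] at hW
  have hne : c * moment (n + 1) 0 κ ≠ 0 := (mul_pos hcp (moment_zero_pos _ _)).ne'
  have hd := (dU0 κ).div ((moment_hasDerivAt (n + 1) 0 κ).const_mul c) hne
  have e : S.profile p φ = fun ν => U0 ν / (c * moment (n + 1) 0 ν) :=
    funext fun ν => by simp only [profile, hZ]; rfl
  rw [e]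
  refine hd.congr_deriv ?_
  simp only [drop, weight, hZ]
  rw [← neg_div, hW]
  simp only [Wr]
  field_simp

omit hp

theorem withDefect_le {φ : M → ℝ} {C : ℝ} (h : ∀ x, φ x ≤ C) (x : M) :
    S.withDefect p φ x ≤ C * S.withDefect p (fun _ => 1) x := by
  simp only [withDefect, one_mul]
  exact mul_le_mul_of_nonneg_right (h x) (sq_nonneg _)

theorem drop_eq {φ : M → ℝ} (hφ : S.Smooth φ) (κ : ℝ) :
    S.drop p φ κ = (∫ ν in (0 : ℝ)..κ, ν ^ (m - 2) * equatorIntegral m ν *
        (ν ^ 2 * S.pairing p (S.withDefect p φ) ν)) / weight m κ + S.lapPart p (S.lap φ) κ := by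
  have h1 := S.pairing_continuous p (S.cont (S.smooth_withDefect p hφ))
  have h2 := S.pairing_continuous p (S.cont (S.smooth_lap hφ))
  have h3 : Continuous (equatorIntegral m) := by
    rw [funext (equatorIntegral_eq m)]; exact continuous_const.mul (moment_continuous _ _)
  simp only [drop, lapPart, source, mul_add, ← add_div]
  rw [← intervalIntegral.integral_add (Continuous.intervalIntegrable (by fun_prop) _ _)
    (Continuous.intervalIntegrable (by fun_prop) _ _)]

theorem weight_nonneg' {κ : ℝ} (hκ : 0 ≤ κ) : 0 ≤ weight m κ :=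
  mul_nonneg (pow_nonneg hκ m) (sq_nonneg _)

theorem drop_le {φ : M → ℝ} (hφ : S.Smooth φ) {C : ℝ} (h : ∀ x, φ x ≤ C) {κ : ℝ} (hκ : 0 ≤ κ) :
    S.drop p φ κ ≤ C * S.drop p (fun _ => 1) κ + S.lapPart p (S.lap φ) κ := by
  have h1 := S.pairing_continuous p (S.cont (S.smooth_withDefect p hφ))
  have h2 := S.pairing_continuous p (S.cont (S.smooth_withDefect p (S.smooth_const 1)))
  have h3 : Continuous (equatorIntegral m) := by
    rw [funext (equatorIntegral_eq m)]; exact continuous_const.mul (moment_continuous _ _)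
  have hz : S.lapPart p (S.lap fun _ => (1 : ℝ)) κ = 0 := by
    simp [lapPart, pairing, S.lap_const]
  rw [S.drop_eq p hφ, S.drop_eq p (S.smooth_const 1), hz, add_zero]
  refine add_le_add ?_ le_rfl
  rw [← mul_div_assoc, ← intervalIntegral.integral_const_mul]
  refine div_le_div_of_nonneg_right ?_ (weight_nonneg' hκ)
  refine intervalIntegral.integral_mono_on hκ (Continuous.intervalIntegrable (by fun_prop) _ _)
    (Continuous.intervalIntegrable (by fun_prop) _ _) fun ν hν => ?_
  have hU : S.pairing p (S.withDefect p φ) ν ≤ C * S.pairing p (S.withDefect p fun _ => 1) ν := by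
    rw [← S.pairing_smul]
    exact S.pairing_mono p (S.cont (S.smooth_withDefect p hφ))
      (S.cont (S.smooth_smul C (S.smooth_withDefect p (S.smooth_const 1)))) (S.withDefect_le p h) ν
  calc ν ^ (m - 2) * equatorIntegral m ν * (ν ^ 2 * S.pairing p (S.withDefect p φ) ν)
      ≤ ν ^ (m - 2) * equatorIntegral m ν *
        (ν ^ 2 * (C * S.pairing p (S.withDefect p fun _ => 1) ν)) := by
        refine mul_le_mul_of_nonneg_left (mul_le_mul_of_nonneg_left hU (sq_nonneg _)) ?_
        exact mul_nonneg (pow_nonneg hν.1 _) (equatorIntegral_pos m ν).le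
    _ = C * (ν ^ (m - 2) * equatorIntegral m ν *
        (ν ^ 2 * S.pairing p (S.withDefect p fun _ => 1) ν)) := by ring

theorem le_drop {φ : M → ℝ} (hφ : S.Smooth φ) (h : ∀ x, 0 ≤ φ x) {κ : ℝ} (hκ : 0 ≤ κ) :
    S.lapPart p (S.lap φ) κ ≤ S.drop p φ κ := by
  rw [S.drop_eq p hφ]
  refine le_add_of_nonneg_left (div_nonneg ?_ (weight_nonneg' hκ))
  refine intervalIntegral.integral_nonneg hκ fun ν hν => ?_
  exact mul_nonneg (mul_nonneg (pow_nonneg hν.1 _) (equatorIntegral_pos m ν).le)
    (mul_nonneg (sq_nonneg _)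
      (S.pairing_nonneg p (fun x => mul_nonneg (h x) (sq_nonneg _)) ν))

theorem drop_one_nonneg {κ : ℝ} (hκ : 0 ≤ κ) : 0 ≤ S.drop p (fun _ => 1) κ := by
  have h := S.le_drop p (S.smooth_const 1) (fun _ => zero_le_one) hκ
  have hz : S.lapPart p (S.lap fun _ => (1 : ℝ)) κ = 0 := by
    simp [lapPart, pairing, S.lap_const]
  rwa [hz] at h

end MinimalImmersion

end Vale.Agent.P224.Gap
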