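import Vale.Agent.P224.Gap.Compare

/-!
# P224: the test functions `1 - ⟨ν, e⟩²` and `h² / (1 + L h²)`
-/

namespace Vale.Agent.P224.Gap

open MeasureTheory Filter Topology
open scoped ContDiff

namespace MinimalImmersion

variable {m : ℕ} {M : Type} [TopologicalSpace M] [MeasurableSpace M] (S : MinimalImmersion m M)

/-- `1 - ⟨ν, e⟩²`. -/
def tilt (e : Fin (m + 2) → ℝ) (x : M) : ℝ := 1 - S.nrmL e x ^ 2

/-- `h² / (1 + L h²)`, `h = ⟨F, e⟩`. -/
noncomputable def height (L : ℝ) (e : Fin (m + 2) → ℝ) (x : M) : ℝ :=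
  S.posL e x ^ 2 / (1 + L * S.posL e x ^ 2)

theorem sffSq_nonneg (x : M) : 0 ≤ S.sffSq x :=
  Finset.sum_nonneg fun i _ => Finset.sum_nonneg fun j _ => sq_nonneg _

theorem sffSq_flip (x : M) : S.sffSq (S.flip x) = S.sffSq x := by
  have h : ∀ i j, S.sff i j (S.flip x) = -S.sff i j x := fun i j => by
    unfold sff
    rw [← S.D_flip i _ (S.smooth_nrm j), show (fun y => S.nrm (S.flip y) j) = fun y => -S.nrm y j from
      funext fun y => by rw [S.nrm_flip]; rfl, S.D_neg i (S.smooth_nrm j)]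
  simp only [sffSq, h, neg_sq]

theorem flip_ne (x : M) : S.flip x ≠ x := fun h => by
  have h1 := congrArg S.nrm h
  rw [S.nrm_flip] at h1
  have h2 : ∀ i, S.nrm x i = 0 := fun i => by
    have := congrFun h1 i
    simp only [Pi.neg_apply] at this
    linarith
  have := S.nrm_nrm x
  simp [h2] at this

theorem smooth_tilt (e : Fin (m + 2) → ℝ) : S.Smooth (S.tilt e) :=
  S.smooth_comp _ (fun y => 1 - y ^ 2) (S.smooth_nrmL e) (contDiff_const.sub (contDiff_id.pow 2))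

theorem smooth_height {L : ℝ} (hL : 0 ≤ L) (e : Fin (m + 2) → ℝ) : S.Smooth (S.height L e) :=
  S.smooth_comp _ _ (S.smooth_posL e) (smallSq_contDiff hL)

theorem height_nonneg {L : ℝ} (hL : 0 ≤ L) (e : Fin (m + 2) → ℝ) (x : M) : 0 ≤ S.height L e x := by
  unfold height; positivity

theorem height_le {L : ℝ} (hL : 1 ≤ L) (e : Fin (m + 2) → ℝ) (x : M) : S.height L e x ≤ 1 / L := by
  rcases smallSq_bounds hL (S.posL e x) with ⟨-, b2, -⟩ | hy
  · exact b2
  · simp [height, hy]; linarith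

variable {e : Fin (m + 2) → ℝ} (he : ∑ i, e i * e i = 1)
include he

theorem tangent_nonneg (x : M) : 0 ≤ 1 - S.posL e x ^ 2 - S.nrmL e x ^ 2 := by
  have := S.gdot_self_nonneg (S.posL e) x
  rw [S.gdot_posL, he] at this
  linarith [sq (S.posL e x), sq (S.nrmL e x)]

theorem tilt_nonneg (x : M) : 0 ≤ S.tilt e x := by
  unfold tilt
  linarith [S.tangent_nonneg he x, sq_nonneg (S.posL e x)]

omit he in
theorem tilt_le_one (x : M) : S.tilt e x ≤ 1 := by
  unfold tilt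
  linarith [sq_nonneg (S.nrmL e x)]

omit he in
theorem lap_tilt (x : M) : S.lap (S.tilt e) x = 2 * S.sffSq x * S.nrmL e x ^ 2
    - 2 * S.gdot (S.nrmL e) (S.nrmL e) x := by
  have d1 : deriv (fun y : ℝ => 1 - y ^ 2) = fun y => -(2 * y) := funext fun y => by
    rw [((hasDerivAt_pow 2 y).const_sub 1).deriv]; simp
  have hd := (((hasDerivAt_id' (S.nrmL e x)).const_mul 2).fun_neg).deriv
  have hΦ : ContDiff ℝ ∞ fun y : ℝ => 1 - y ^ 2 := contDiff_const.sub (contDiff_id.pow 2)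
  rw [show S.tilt e = fun y => (fun y : ℝ => 1 - y ^ 2) (S.nrmL e y) from rfl,
    S.lap_comp _ (S.smooth_nrmL e) hΦ, d1, S.lap_nrmL, hd]
  ring

theorem lap_tilt_le {L : ℝ} (hmax : ∀ x, S.sffSq x ≤ L) (x : M) :
    S.lap (S.tilt e) x ≤ 2 * L := by
  rw [lap_tilt]
  have h1 := S.gdot_self_nonneg (S.nrmL e) x
  have h : S.nrmL e x ^ 2 ≤ 1 := sub_nonneg.1 (S.tilt_nonneg he x)
  have h2 := mul_le_mul (hmax x) h (sq_nonneg _) ((S.sffSq_nonneg x).trans (hmax x))
  linarith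

theorem lap_tilt_ge {L : ℝ} (hmax : ∀ x, S.sffSq x ≤ L) (x : M) :
    2 * S.sffSq x - 4 * L * S.tilt e x ≤ S.lap (S.tilt e) x ∧ -(2 * L) ≤ S.lap (S.tilt e) x := by
  rw [lap_tilt]
  have hg := S.gdot_nrmL_le e x
  rw [he] at hg
  have h2 : S.sffSq x * (1 - S.posL e x ^ 2 - S.nrmL e x ^ 2) ≤ S.sffSq x * S.tilt e x := by
    refine mul_le_mul_of_nonneg_left ?_ (S.sffSq_nonneg x)
    unfold tilt
    linarith [sq_nonneg (S.posL e x)]
  have e1 : S.sffSq x * S.nrmL e x ^ 2 = S.sffSq x - S.sffSq x * S.tilt e x := by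
    unfold tilt; ring
  have h3 : S.sffSq x * S.tilt e x ≤ L * S.tilt e x :=
    mul_le_mul_of_nonneg_right (hmax x) (S.tilt_nonneg he x)
  have h4 : S.sffSq x * S.tilt e x ≤ S.sffSq x :=
    mul_le_of_le_one_right (S.sffSq_nonneg x) (S.tilt_le_one x)
  constructor <;> linarith [hmax x]

theorem lap_height {L : ℝ} (hL : 0 ≤ L) (x : M) : S.lap (S.height L e) x =
    2 * (1 - 3 * (L * S.posL e x ^ 2)) / (1 + L * S.posL e x ^ 2) ^ 3
      * (1 - S.posL e x ^ 2 - S.nrmL e x ^ 2)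
    - m * (2 * S.posL e x / (1 + L * S.posL e x ^ 2) ^ 2 * S.posL e x) := by
  rw [show S.height L e = fun y => (fun y : ℝ => y ^ 2 / (1 + L * y ^ 2)) (S.posL e y) from rfl,
    S.lap_comp _ (S.smooth_posL e) (smallSq_contDiff hL), smallSq_deriv2 hL, smallSq_deriv hL,
    S.lap_posL, S.gdot_posL, he]
  ring

theorem lap_height_le {L : ℝ} (hL : 1 ≤ L) (x : M) : S.lap (S.height L e) x ≤ 2 * S.tilt e x := by
  rw [S.lap_height he (by linarith)]
  rcases smallSq_bounds hL (S.posL e x) with ⟨-, -, b3, -, -, b6, -, -⟩ | hy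
  · have h1 := mul_le_mul_of_nonneg_right b3 (S.tangent_nonneg he x)
    have h2 := mul_nonneg (Nat.cast_nonneg m : (0 : ℝ) ≤ m) b6
    unfold tilt
    linarith [sq_nonneg (S.posL e x)]
  · simp [hy, tilt]

theorem lap_height_ge {L : ℝ} (hL : 1 ≤ L) (x : M) :
    2 * S.tilt e x - (12 * L + 2 + 2 * m) * S.height L e x ≤ S.lap (S.height L e) x := by
  rw [S.lap_height he (by linarith)]
  rcases smallSq_bounds hL (S.posL e x) with ⟨b1, -, -, b4, b5, -, b7, -⟩ | hy
  · have h1 := mul_le_mul_of_nonneg_right b4 (S.tilt_nonneg he x)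
    have h2 : 12 * L * S.height L e x * S.tilt e x ≤ 12 * L * S.height L e x :=
      mul_le_of_le_one_right (mul_nonneg (by linarith) b1) (S.tilt_le_one x)
    have h3 := mul_le_mul_of_nonneg_left b7 (Nat.cast_nonneg m : (0 : ℝ) ≤ m)
    unfold tilt height at *
    linear_combination h1 + h2 + h3 + b5
  · simp [hy, tilt, height]

end MinimalImmersion

end Vale.Agent.P224.Gap
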