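import Vale.Agent.P224.Gap.Defs

/-!
# P224: calculus on the normal space of the Clifford torus
-/

namespace Vale.Agent.P224.Gap.Clifford

open MeasureTheory Filter Topology
open scoped ContDiff

local instance twoPiFact : Fact (0 < 2 * Real.pi) := ⟨Real.two_pi_pos⟩

/-- The circle of length `2π`. -/
abbrev T : Type := AddCircle (2 * Real.pi)

/-- The space of unit normals of the Clifford torus. -/
abbrev Mt : Type := (T × T) × Bool

/-- Cosine on the circle. -/
noncomputable def cosT : T → ℝ := Real.cos_periodic.lift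

/-- Sine on the circle. -/
noncomputable def sinT : T → ℝ := Real.sin_periodic.lift

@[simp] theorem cosT_coe (r : ℝ) : cosT (r : T) = Real.cos r := Function.Periodic.lift_coe _ r

@[simp] theorem sinT_coe (r : ℝ) : sinT (r : T) = Real.sin r := Function.Periodic.lift_coe _ r

theorem exists_lift (x : Mt) : ∃ (r q : ℝ) (b : Bool), x = (((r : T), (q : T)), b) := by
  obtain ⟨⟨s, t⟩, b⟩ := x
  obtain ⟨r, rfl⟩ := QuotientAddGroup.mk_surjective s
  obtain ⟨q, rfl⟩ := QuotientAddGroup.mk_surjective t
  exact ⟨r, q, b, rfl⟩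

theorem cosT_sq_add (s : T) : cosT s ^ 2 + sinT s ^ 2 = 1 := by
  obtain ⟨r, rfl⟩ := QuotientAddGroup.mk_surjective s
  simp [Real.cos_sq_add_sin_sq]

theorem circle_ext {s t : T} (hc : cosT s = cosT t) (hs : sinT s = sinT t) : s = t := by
  obtain ⟨r, rfl⟩ := QuotientAddGroup.mk_surjective s
  obtain ⟨q, rfl⟩ := QuotientAddGroup.mk_surjective t
  simp only [cosT_coe, sinT_coe] at hc hs
  exact Real.Angle.cos_sin_inj hc hs

/-- The periodic lift of a function to the plane. -/
noncomputable def lift (u : Mt → ℝ) (b : Bool) (p : ℝ × ℝ) : ℝ := u (((p.1 : T), (p.2 : T)), b)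

/-- Smooth functions: periodic smooth functions. -/
def Smooth (u : Mt → ℝ) : Prop := ∀ b, ContDiff ℝ ∞ (lift u b)

/-- The derivative along the vector `v` of the plane. -/
noncomputable def dd (v : ℝ × ℝ) (u : Mt → ℝ) (x : Mt) : ℝ :=
  deriv (fun h : ℝ => u ((x.1.1 + ((h * v.1 : ℝ) : T), x.1.2 + ((h * v.2 : ℝ) : T)), x.2)) 0

theorem hasDerivAt_line {u : Mt → ℝ} (hu : Smooth u) (v : ℝ × ℝ) (r q : ℝ) (b : Bool) :
    HasDerivAt (fun h : ℝ => u (((r : T) + ((h * v.1 : ℝ) : T), (q : T) + ((h * v.2 : ℝ) : T)), b))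
      (fderiv ℝ (lift u b) (r, q) v) 0 := by
  have h1 : HasDerivAt (fun h : ℝ => ((r, q) : ℝ × ℝ) + h • v) v 0 := by
    simpa using ((hasDerivAt_id' (0 : ℝ)).smul_const v).const_add ((r, q) : ℝ × ℝ)
  have h2 := ((hu b).differentiable (by simp)).differentiableAt (x := (r, q)) |>.hasFDerivAt
  have h3 := h2.comp_hasDerivAt_of_eq (0 : ℝ) h1 (by simp)
  refine h3.congr_of_eventuallyEq (Eventually.of_forall fun h => ?_)
  simp [lift]

theorem dd_coe {u : Mt → ℝ} (hu : Smooth u) (v : ℝ × ℝ) (r q : ℝ) (b : Bool) :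
    dd v u (((r : T), (q : T)), b) = fderiv ℝ (lift u b) (r, q) v :=
  (hasDerivAt_line hu v r q b).deriv

theorem hasDerivAt_dd {u : Mt → ℝ} (hu : Smooth u) (v : ℝ × ℝ) (x : Mt) :
    HasDerivAt (fun h : ℝ => u ((x.1.1 + ((h * v.1 : ℝ) : T), x.1.2 + ((h * v.2 : ℝ) : T)), x.2))
      (dd v u x) 0 := by
  obtain ⟨r, q, b, rfl⟩ := exists_lift x
  exact (hasDerivAt_line hu v r q b).differentiableAt.hasDerivAt

theorem lift_dd {u : Mt → ℝ} (hu : Smooth u) (v : ℝ × ℝ) (b : Bool) :
    lift (dd v u) b = fun p => fderiv ℝ (lift u b) p v :=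
  funext fun p => dd_coe hu v p.1 p.2 b

theorem Smooth.dd {u : Mt → ℝ} (hu : Smooth u) (v : ℝ × ℝ) : Smooth (dd v u) := fun b => by
  rw [lift_dd hu v b]
  exact ((hu b).fderiv_right (by simp)).clm_apply contDiff_const

theorem dd_comm {u : Mt → ℝ} (hu : Smooth u) (v w : ℝ × ℝ) (x : Mt) :
    Clifford.dd v (Clifford.dd w u) x = Clifford.dd w (Clifford.dd v u) x := by
  obtain ⟨r, q, b, rfl⟩ := exists_lift x
  rw [dd_coe (hu.dd w), dd_coe (hu.dd v), lift_dd hu w, lift_dd hu v]
  have hd : DifferentiableAt ℝ (fderiv ℝ (lift u b)) (r, q) :=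
    (((hu b).fderiv_right (m := ∞) (by simp)).differentiable (by simp)).differentiableAt
  rw [fderiv_clm_apply hd (differentiableAt_const w),
    fderiv_clm_apply hd (differentiableAt_const v)]
  simp only [fderiv_fun_const, Pi.zero_apply, ContinuousLinearMap.comp_zero, zero_add,
    ContinuousLinearMap.flip_apply]
  exact (hu b).contDiffAt.isSymmSndFDerivAt (by simp; exact WithTop.coe_le_coe.2 le_top) v w

theorem smooth_const (c : ℝ) : Smooth fun _ => c := fun _ => contDiff_const

theorem Smooth.add {u v : Mt → ℝ} (hu : Smooth u) (hv : Smooth v) :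
    Smooth fun x => u x + v x := fun b => (hu b).add (hv b)

theorem Smooth.mul {u v : Mt → ℝ} (hu : Smooth u) (hv : Smooth v) :
    Smooth fun x => u x * v x := fun b => (hu b).mul (hv b)

theorem Smooth.comp {u : Mt → ℝ} (hu : Smooth u) {Φ : ℝ → ℝ} (hΦ : ContDiff ℝ ∞ Φ) :
    Smooth fun x => Φ (u x) := fun b => hΦ.comp (hu b)

theorem Smooth.flipBool {u : Mt → ℝ} (hu : Smooth u) : Smooth fun x => u (x.1, !x.2) :=
  fun b => hu (!b)

theorem smooth_cos_fst : Smooth fun x => cosT x.1.1 := fun b => by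
  have : lift (fun x => cosT x.1.1) b = fun p => Real.cos p.1 := by funext p; simp [lift]
  rw [this]; fun_prop

theorem smooth_sin_fst : Smooth fun x => sinT x.1.1 := fun b => by
  have : lift (fun x => sinT x.1.1) b = fun p => Real.sin p.1 := by funext p; simp [lift]
  rw [this]; fun_prop

theorem smooth_cos_snd : Smooth fun x => cosT x.1.2 := fun b => by
  have : lift (fun x => cosT x.1.2) b = fun p => Real.cos p.2 := by funext p; simp [lift]
  rw [this]; fun_prop

theorem smooth_sin_snd : Smooth fun x => sinT x.1.2 := fun b => by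
  have : lift (fun x => sinT x.1.2) b = fun p => Real.sin p.2 := by funext p; simp [lift]
  rw [this]; fun_prop

theorem smooth_sheet (f : Bool → ℝ) : Smooth fun x => f x.2 := fun b => by
  show ContDiff ℝ ∞ fun _ : ℝ × ℝ => f b
  exact contDiff_const

theorem Smooth.continuous {u : Mt → ℝ} (hu : Smooth u) : Continuous u := by
  rw [continuous_prod_of_discrete_right]
  intro b
  have hq : IsOpenQuotientMap (fun r : ℝ => (r : T)) := QuotientAddGroup.isOpenQuotientMap_mk
  exact (hq.prodMap hq).continuous_comp_iff.1 (hu b).continuous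

theorem continuous_cosT : Continuous cosT := by
  have hq : IsOpenQuotientMap (fun r : ℝ => (r : T)) := QuotientAddGroup.isOpenQuotientMap_mk
  exact hq.continuous_comp_iff.1 (Real.continuous_cos.congr fun r => (cosT_coe r).symm)

theorem dd_const (c : ℝ) (v : ℝ × ℝ) (x : Mt) : dd v (fun _ => c) x = 0 :=
  deriv_const _ _

theorem dd_add {u w : Mt → ℝ} (hu : Smooth u) (hw : Smooth w) (v : ℝ × ℝ) (x : Mt) :
    dd v (fun y => u y + w y) x = dd v u x + dd v w x :=
  ((hasDerivAt_dd hu v x).fun_add (hasDerivAt_dd hw v x)).deriv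

theorem dd_mul {u w : Mt → ℝ} (hu : Smooth u) (hw : Smooth w) (v : ℝ × ℝ) (x : Mt) :
    dd v (fun y => u y * w y) x = dd v u x * w x + u x * dd v w x := by
  have h := ((hasDerivAt_dd hu v x).fun_mul (hasDerivAt_dd hw v x)).deriv
  simpa [dd] using h

theorem dd_comp {u : Mt → ℝ} (hu : Smooth u) {Φ : ℝ → ℝ} (hΦ : ContDiff ℝ ∞ Φ) (v : ℝ × ℝ)
    (x : Mt) : dd v (fun y => Φ (u y)) x = deriv Φ (u x) * dd v u x := by
  have h1 : HasDerivAt Φ (deriv Φ (u x)) (u x) :=
    ((hΦ.differentiable (by simp)) (u x)).hasDerivAt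
  exact (h1.comp_of_eq 0 (hasDerivAt_dd hu v x) (by simp)).deriv

theorem dd_flipBool (u : Mt → ℝ) (v : ℝ × ℝ) (x : Mt) :
    dd v (fun y => u (y.1, !y.2)) x = dd v u (x.1, !x.2) := rfl

theorem dd_sheet (f : Bool → ℝ) (v : ℝ × ℝ) (x : Mt) : dd v (fun y => f y.2) x = 0 := by
  show deriv (fun _ : ℝ => f x.2) 0 = 0
  exact deriv_const _ _

theorem dd_cos_fst (v : ℝ × ℝ) (x : Mt) :
    dd v (fun y => cosT y.1.1) x = -(sinT x.1.1) * v.1 := by
  obtain ⟨r, q, b, rfl⟩ := exists_lift x
  refine HasDerivAt.deriv ?_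
  simp only [← AddCircle.coe_add, cosT_coe, sinT_coe]
  simpa using (((hasDerivAt_id' (0 : ℝ)).mul_const v.1).const_add r).cos

theorem dd_sin_fst (v : ℝ × ℝ) (x : Mt) :
    dd v (fun y => sinT y.1.1) x = cosT x.1.1 * v.1 := by
  obtain ⟨r, q, b, rfl⟩ := exists_lift x
  refine HasDerivAt.deriv ?_
  simp only [← AddCircle.coe_add, cosT_coe, sinT_coe]
  simpa using (((hasDerivAt_id' (0 : ℝ)).mul_const v.1).const_add r).sin

theorem dd_cos_snd (v : ℝ × ℝ) (x : Mt) :
    dd v (fun y => cosT y.1.2) x = -(sinT x.1.2) * v.2 := by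
  obtain ⟨r, q, b, rfl⟩ := exists_lift x
  refine HasDerivAt.deriv ?_
  simp only [← AddCircle.coe_add, cosT_coe, sinT_coe]
  simpa using (((hasDerivAt_id' (0 : ℝ)).mul_const v.2).const_add q).cos

theorem dd_sin_snd (v : ℝ × ℝ) (x : Mt) :
    dd v (fun y => sinT y.1.2) x = cosT x.1.2 * v.2 := by
  obtain ⟨r, q, b, rfl⟩ := exists_lift x
  refine HasDerivAt.deriv ?_
  simp only [← AddCircle.coe_add, cosT_coe, sinT_coe]
  simpa using (((hasDerivAt_id' (0 : ℝ)).mul_const v.2).const_add q).sin

/-- One half of the area measure of the double of the Clifford torus. -/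
noncomputable def vol : Measure Mt :=
  (1 / 4 : NNReal) • ((volume.prod volume : Measure (T × T)).prod Measure.count)

instance vol_finite : IsFiniteMeasure vol := by
  unfold vol
  infer_instance

theorem integral_circle (a : ℝ) {g : T → ℝ} :
    ∫ s, g s = ∫ r in a..a + 2 * Real.pi, g (r : T) :=
  (AddCircle.intervalIntegral_preimage (2 * Real.pi) a g).symm

theorem integral_vol {f : Mt → ℝ} (hf : Continuous f) :
    ∫ x, f x ∂vol = (1 / 4 : ℝ) * ∑ b, ∫ s, ∫ t, f ((s, t), b) := by
  have hi : Integrable f ((volume.prod volume : Measure (T × T)).prod Measure.count) :=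
    hf.integrable_of_hasCompactSupport (HasCompactSupport.of_compactSpace f)
  have hb : ∀ b, Integrable (fun z : T × T => f (z, b)) (volume.prod volume) := fun b =>
    (hf.comp (continuous_id.prodMk continuous_const)).integrable_of_hasCompactSupport
      (HasCompactSupport.of_compactSpace _)
  rw [vol, integral_smul_nnreal_measure, integral_prod f hi]
  simp only [integral_count]
  rw [integral_finsetSum _ fun b _ => hb b, NNReal.smul_def, smul_eq_mul]
  refine congrArg₂ (· * ·) (by norm_num) (Finset.sum_congr rfl fun b _ => ?_)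
  exact integral_prod _ (hb b)

theorem integral_dd_eq_zero {u : Mt → ℝ} (hu : Smooth u) (v : ℝ × ℝ) :
    ∫ x, dd v u x ∂vol = 0 := by
  have hsplit : ∀ x, dd v u x = v.1 * dd (1, 0) u x + v.2 * dd (0, 1) u x := by
    intro x
    obtain ⟨r, q, b, rfl⟩ := exists_lift x
    simp only [dd_coe hu, ← smul_eq_mul (α := ℝ), ← map_smul, ← map_add]
    congr 1
    ext <;> simp
  have key : ∀ (b : Bool) (w : ℝ × ℝ), w = (1, 0) ∨ w = (0, 1) →
      ∫ s : T, ∫ t : T, dd w u ((s, t), b) = 0 := by
    intro b w hw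
    have hc : Continuous fun z : T × T => dd w u (z, b) :=
      (hu.dd w).continuous.comp (continuous_id.prodMk continuous_const)
    rcases hw with rfl | rfl
    · rw [integral_integral_swap (f := fun s t => dd (1, 0) u ((s, t), b))
        (hc.integrable_of_hasCompactSupport (HasCompactSupport.of_compactSpace _))]
      refine integral_eq_zero_of_ae (Eventually.of_forall fun t => ?_)
      obtain ⟨q, rfl⟩ := QuotientAddGroup.mk_surjective t
      dsimp only
      rw [integral_circle 0 (g := fun s => dd (1, 0) u ((s, (q : T)), b)), zero_add]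
      simp only [dd_coe hu]
      have hd : ∀ r : ℝ, HasDerivAt (fun r => lift u b (r, q))
          (fderiv ℝ (lift u b) (r, q) (1, 0)) r := fun r =>
        HasFDerivAt.comp_hasDerivAt (f := fun r => (r, q)) r
          ((((hu b).differentiable (by simp)) (r, q)).hasFDerivAt)
          ((hasDerivAt_id' r).prodMk (hasDerivAt_const r q))
      rw [intervalIntegral.integral_eq_sub_of_hasDerivAt (fun r _ => hd r)
        (((((hu b).fderiv_right (m := ∞) (by simp)).continuous.clm_apply continuous_const).comp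
          (continuous_id.prodMk continuous_const)).intervalIntegrable _ _)]
      simp [lift, AddCircle.coe_period]
    · refine integral_eq_zero_of_ae (Eventually.of_forall fun s => ?_)
      obtain ⟨r, rfl⟩ := QuotientAddGroup.mk_surjective s
      dsimp only
      rw [integral_circle 0 (g := fun t => dd (0, 1) u (((r : T), t), b)), zero_add]
      simp only [dd_coe hu, Pi.zero_apply]
      have hd : ∀ q : ℝ, HasDerivAt (fun q => lift u b (r, q))
          (fderiv ℝ (lift u b) (r, q) (0, 1)) q := fun q =>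
        HasFDerivAt.comp_hasDerivAt (f := fun q => (r, q)) q
          ((((hu b).differentiable (by simp)) (r, q)).hasFDerivAt)
          ((hasDerivAt_const q r).prodMk (hasDerivAt_id' q))
      rw [intervalIntegral.integral_eq_sub_of_hasDerivAt (fun q _ => hd q)
        (((((hu b).fderiv_right (m := ∞) (by simp)).continuous.clm_apply continuous_const).comp
          (continuous_const.prodMk continuous_id)).intervalIntegrable _ _)]
      simp [lift, AddCircle.coe_period]
  have h0 : ∀ w : ℝ × ℝ, w = (1, 0) ∨ w = (0, 1) → ∫ x, dd w u x ∂vol = 0 := fun w hw => by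
    simp [integral_vol (hu.dd w).continuous, key _ w hw]
  have hi : ∀ w, Integrable (fun x => dd w u x) vol := fun w =>
    (hu.dd w).continuous.integrable_of_hasCompactSupport (HasCompactSupport.of_compactSpace _)
  simp only [hsplit]
  rw [integral_add ((hi _).const_mul _) ((hi _).const_mul _), integral_const_mul,
    integral_const_mul, h0 _ (Or.inl rfl), h0 _ (Or.inr rfl)]
  ring

end Vale.Agent.P224.Gap.Clifford
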