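import Vale.Agent.P224.Gap.TorusCalc
import Vale.Agent.P224.Gap.Equator

/-!
# P224: the Laplace asymptotics on the Clifford torus
-/

namespace Vale.Agent.P224.Gap.Clifford

open MeasureTheory Filter Topology Set

attribute [local instance] twoPiFact

/-- `k (cos (u/√k) - 1)` tends to `-u²/2`. -/
theorem tendsto_mul_cos_sub_one (u : ℝ) :
    Tendsto (fun k : ℝ => k * (Real.cos (u / Real.sqrt k) - 1)) atTop
      (𝓝 (-(1 / 2) * u ^ 2)) := by
  have h0 : Tendsto (fun k : ℝ => u / 2 / Real.sqrt k) atTop (𝓝 0) :=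
    Real.tendsto_sqrt_atTop.const_div_atTop (u / 2)
  have h1 := (((Real.continuous_sinc.tendsto 0).comp h0).pow 2).const_mul (-(u ^ 2) / 2)
  simp only [Real.sinc_zero, one_pow, mul_one, Function.comp_def] at h1
  rw [show -(u ^ 2) / 2 = -(1 / 2) * u ^ 2 by ring] at h1
  refine h1.congr' ?_
  filter_upwards [eventually_gt_atTop (0 : ℝ)] with k hk
  have hs : 0 < Real.sqrt k := Real.sqrt_pos.2 hk
  rcases eq_or_ne u 0 with rfl | hu
  · simp
  · rw [Real.sinc_of_ne_zero (div_ne_zero (by simpa using hu) hs.ne'), div_pow,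
      Real.sin_sq_eq_half_sub, show 2 * (u / 2 / Real.sqrt k) = u / Real.sqrt k by ring,
      div_pow, Real.sq_sqrt hk.le]
    field_simp
    ring

/-- The window `(-π √k, π √k]`. -/
def window (k : ℝ) : Set ℝ := Ioc (-(Real.pi * Real.sqrt k)) (Real.pi * Real.sqrt k)

/-- The rescaled Laplace integrand. -/
noncomputable def kern (ψ : ℝ × ℝ → ℝ) (k : ℝ) (z : ℝ × ℝ) : ℝ :=
  (window k ×ˢ window k).indicator (fun z : ℝ × ℝ =>
    ψ (z.1 / Real.sqrt k, z.2 / Real.sqrt k) *
      (Real.exp (k * (Real.cos (z.1 / Real.sqrt k) - 1)) *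
        Real.exp (k * (Real.cos (z.2 / Real.sqrt k) - 1)))) z

theorem laplace_square {ψ : ℝ × ℝ → ℝ} (hψ : Continuous ψ) {B : ℝ} (hB : ∀ z, |ψ z| ≤ B) :
    Tendsto (fun k : ℝ => k * ∫ s in (-Real.pi)..Real.pi, ∫ t in (-Real.pi)..Real.pi,
        ψ (s, t) * (Real.exp (k * (Real.cos s - 1)) * Real.exp (k * (Real.cos t - 1))))
      atTop (𝓝 (ψ (0, 0) * (2 * Real.pi))) := by
  have hc : (0 : ℝ) < 2 / Real.pi ^ 2 := by positivity
  set bound : ℝ × ℝ → ℝ := fun z =>
    B * Real.exp (-(2 / Real.pi ^ 2) * z.1 ^ 2) * Real.exp (-(2 / Real.pi ^ 2) * z.2 ^ 2) with hbd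
  have hint : Integrable bound ((volume : Measure ℝ).prod volume) :=
    ((integrable_exp_neg_mul_sq hc).const_mul B).mul_prod (integrable_exp_neg_mul_sq hc)
  have hB0 : 0 ≤ B := (abs_nonneg _).trans (hB (0, 0))
  have hlim : Tendsto (fun k => ∫ z, kern ψ k z ∂(volume : Measure ℝ).prod volume) atTop
      (𝓝 (∫ z : ℝ × ℝ, ψ (0, 0) * Real.exp (-(1 / 2) * z.1 ^ 2) *
        Real.exp (-(1 / 2) * z.2 ^ 2) ∂(volume : Measure ℝ).prod volume)) := by
    refine tendsto_integral_filter_of_dominated_convergence bound ?_ ?_ hint ?_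
    · filter_upwards with k
      exact ((by fun_prop : Continuous fun z : ℝ × ℝ =>
        ψ (z.1 / Real.sqrt k, z.2 / Real.sqrt k) *
          (Real.exp (k * (Real.cos (z.1 / Real.sqrt k) - 1)) *
            Real.exp (k * (Real.cos (z.2 / Real.sqrt k) - 1)))).aestronglyMeasurable).indicator
        (measurableSet_Ioc.prod measurableSet_Ioc)
    · filter_upwards [eventually_gt_atTop (0 : ℝ)] with k hk
      refine Eventually.of_forall fun z => ?_
      have hs : 0 < Real.sqrt k := Real.sqrt_pos.2 hk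
      have key : ∀ u ∈ window k, Real.exp (k * (Real.cos (u / Real.sqrt k) - 1))
          ≤ Real.exp (-(2 / Real.pi ^ 2) * u ^ 2) := by
        intro u hu
        have h : |u / Real.sqrt k| ≤ Real.pi := by
          rw [abs_div, abs_of_pos hs, div_le_iff₀ hs, abs_le]
          exact ⟨hu.1.le, hu.2⟩
        refine Real.exp_le_exp.2 ?_
        have h2 := mul_le_mul_of_nonneg_left (Real.cos_le_one_sub_mul_cos_sq h) hk.le
        have e : k * (2 / Real.pi ^ 2 * (u / Real.sqrt k) ^ 2) = 2 / Real.pi ^ 2 * u ^ 2 := by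
          rw [div_pow, Real.sq_sqrt hk.le]
          field_simp
        linarith
      by_cases hz : z ∈ window k ×ˢ window k
      · rw [kern, indicator_of_mem hz, Real.norm_eq_abs, abs_mul, abs_mul, Real.abs_exp,
          Real.abs_exp, hbd]
        dsimp only
        rw [mul_assoc B]
        exact mul_le_mul (hB _) (mul_le_mul (key _ hz.1) (key _ hz.2) (Real.exp_pos _).le
          (Real.exp_pos _).le) (by positivity) hB0
      · rw [kern, indicator_of_notMem hz, norm_zero, hbd]
        positivity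
    · refine Eventually.of_forall fun z => ?_
      have h1 : Tendsto (fun k : ℝ => ψ (z.1 / Real.sqrt k, z.2 / Real.sqrt k) *
          (Real.exp (k * (Real.cos (z.1 / Real.sqrt k) - 1)) *
            Real.exp (k * (Real.cos (z.2 / Real.sqrt k) - 1)))) atTop
          (𝓝 (ψ (0, 0) * (Real.exp (-(1 / 2) * z.1 ^ 2) * Real.exp (-(1 / 2) * z.2 ^ 2)))) :=
        ((hψ.tendsto (0, 0)).comp ((Real.tendsto_sqrt_atTop.const_div_atTop z.1).prodMk_nhds
          (Real.tendsto_sqrt_atTop.const_div_atTop z.2))).mul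
          (((Real.continuous_exp.tendsto _).comp (tendsto_mul_cos_sub_one z.1)).mul
            ((Real.continuous_exp.tendsto _).comp (tendsto_mul_cos_sub_one z.2)))
      rw [mul_assoc]
      refine h1.congr' ?_
      have hw : ∀ u : ℝ, ∀ᶠ k in atTop, u ∈ window k := by
        intro u
        filter_upwards [(Real.tendsto_sqrt_atTop.const_mul_atTop Real.pi_pos).eventually_gt_atTop |u|]
          with k hk
        exact ⟨by linarith [neg_abs_le u], by linarith [le_abs_self u]⟩
      filter_upwards [hw z.1, hw z.2] with k h1 h2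
      rw [kern, indicator_of_mem (Set.mem_prod.2 ⟨h1, h2⟩)]
  have hval : (∫ z : ℝ × ℝ, ψ (0, 0) * Real.exp (-(1 / 2) * z.1 ^ 2) *
      Real.exp (-(1 / 2) * z.2 ^ 2) ∂(volume : Measure ℝ).prod volume) = ψ (0, 0) * (2 * Real.pi) := by
    rw [integral_prod_mul (fun u : ℝ => ψ (0, 0) * Real.exp (-(1 / 2) * u ^ 2))
      (fun v : ℝ => Real.exp (-(1 / 2) * v ^ 2)), integral_const_mul, integral_gaussian,
      mul_assoc, ← pow_two, Real.sq_sqrt (by positivity)]
    ring
  rw [hval] at hlim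
  refine hlim.congr' ?_
  filter_upwards [eventually_gt_atTop (0 : ℝ)] with k hk
  have hs : 0 < Real.sqrt k := Real.sqrt_pos.2 hk
  set F : ℝ → ℝ → ℝ := fun s t =>
    ψ (s, t) * (Real.exp (k * (Real.cos s - 1)) * Real.exp (k * (Real.cos t - 1))) with hF
  have hle : -(Real.pi * Real.sqrt k) ≤ Real.pi * Real.sqrt k := by nlinarith [Real.pi_pos]
  have e : ∀ g : ℝ → ℝ, (∫ u in window k, g (u / Real.sqrt k))
      = Real.sqrt k * ∫ s in (-Real.pi)..Real.pi, g s := by
    intro g
    rw [window, ← intervalIntegral.integral_of_le hle, intervalIntegral.integral_comp_div g hs.ne',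
      smul_eq_mul, neg_div, mul_div_cancel_right₀ _ hs.ne']
  have hFc : IntegrableOn (fun z : ℝ × ℝ => F (z.1 / Real.sqrt k) (z.2 / Real.sqrt k))
      (window k ×ˢ window k) ((volume : Measure ℝ).prod volume) :=
    ((by fun_prop : Continuous fun z : ℝ × ℝ => F (z.1 / Real.sqrt k) (z.2 / Real.sqrt k)).continuousOn
      |>.integrableOn_compact (isCompact_Icc.prod isCompact_Icc)).mono_set
      (Set.prod_mono Ioc_subset_Icc_self Ioc_subset_Icc_self)
  unfold kern
  have hm : MeasurableSet (window k ×ˢ window k) := measurableSet_Ioc.prod measurableSet_Ioc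
  rw [integral_indicator hm]
  rw [setIntegral_prod (fun z : ℝ × ℝ => F (z.1 / Real.sqrt k) (z.2 / Real.sqrt k)) hFc]
  simp only [e (F _)]
  rw [integral_const_mul, e (fun s => ∫ t in (-Real.pi)..Real.pi, F s t), ← mul_assoc,
    Real.mul_self_sqrt hk.le]

theorem integral_exp_cos_sin (κ : ℝ) (hκ : κ ≠ 0) :
    (∫ θ in (0 : ℝ)..Real.pi, Real.exp (κ * Real.cos θ) * Real.sin θ ^ 1)
      = (Real.exp κ - Real.exp (-κ)) / κ := by
  have hd : ∀ θ ∈ uIcc (0 : ℝ) Real.pi, HasDerivAt (fun θ => -(Real.exp (κ * Real.cos θ) / κ))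
      (Real.exp (κ * Real.cos θ) * Real.sin θ ^ 1) θ := fun θ _ => by
    refine (((Real.hasDerivAt_cos θ).const_mul κ).exp.div_const κ).neg.congr_deriv ?_
    field_simp
  rw [intervalIntegral.integral_eq_sub_of_hasDerivAt hd
    (Continuous.intervalIntegrable (by fun_prop) _ _)]
  simp only [Real.cos_pi, Real.cos_zero, mul_neg, mul_one]
  ring

theorem equatorIntegral_two (κ : ℝ) (hκ : κ ≠ 0) :
    equatorIntegral 2 κ = 2 * Real.pi * ((Real.exp κ - Real.exp (-κ)) / κ) := by
  rw [equatorIntegral, show (2 : ℕ) - 1 = 1 from rfl, integral_exp_cos_sin κ hκ, sphereArea]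
  norm_num [Real.Gamma_one]

theorem integral_torus_shift (g : T × T → ℝ) (s₀ t₀ : T) :
    ∫ s, ∫ t, g (s, t) = ∫ a in (-Real.pi)..Real.pi, ∫ c in (-Real.pi)..Real.pi,
      g (s₀ + (a : T), t₀ + (c : T)) := by
  have h : ∀ (f : T → ℝ) (x₀ : T), ∫ x, f x = ∫ a in (-Real.pi)..Real.pi, f (x₀ + (a : T)) := by
    intro f x₀
    rw [← integral_add_left_eq_self f x₀, integral_circle (-Real.pi)]
    congr 1
    ring
  rw [h (fun s => ∫ t, g (s, t)) s₀]
  simp only [h (fun t => g (_, t)) t₀]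

/-- The Laplace limit on the torus. -/
theorem torus_laplace {φ : Mt → ℝ} (hφ : Continuous φ) (s₀ t₀ : T) :
    Tendsto (fun κ => ((1 / 4 : ℝ) * ∑ b, ∫ s, ∫ t, φ ((s, t), b) *
        Real.exp (κ * ((cosT (s - s₀) + cosT (t - t₀)) / 2))) / equatorIntegral 2 κ) atTop
      (𝓝 ((1 / 2) * (φ ((s₀, t₀), true) + φ ((s₀, t₀), false)))) := by
  obtain ⟨B, hB⟩ := (isCompact_range hφ.abs).bddAbove
  set Ψ : Bool → ℝ × ℝ → ℝ := fun b p => φ ((s₀ + (p.1 : T), t₀ + (p.2 : T)), b) with hΨ
  have hΨc : ∀ b, Continuous (Ψ b) := fun b => hφ.comp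
    (((continuous_const.add ((AddCircle.continuous_mk' _).comp continuous_fst)).prodMk
      (continuous_const.add ((AddCircle.continuous_mk' _).comp continuous_snd))).prodMk
        continuous_const)
  have hl := fun b => laplace_square (hΨc b) (B := B) fun z => hB ⟨_, rfl⟩
  have hhalf : Tendsto (fun κ : ℝ => κ / 2) atTop atTop := tendsto_id.atTop_div_const two_pos
  have hc : Tendsto (fun κ : ℝ => (1 - Real.exp (-(2 * κ)))⁻¹) atTop (𝓝 1) := by
    have : Tendsto (fun κ : ℝ => Real.exp (-(2 * κ))) atTop (𝓝 0) :=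
      Real.tendsto_exp_neg_atTop_nhds_zero.comp (tendsto_id.const_mul_atTop two_pos)
    simpa using (this.const_sub 1).inv₀ (by norm_num)
  have h := (hc.mul (((hl true).comp hhalf).add ((hl false).comp hhalf))).const_mul
    ((4 * Real.pi)⁻¹)
  have hzero : ∀ b, Ψ b (0, 0) = φ ((s₀, t₀), b) := fun b => by simp [hΨ]
  rw [hzero, hzero, show (4 * Real.pi)⁻¹ * (1 * (φ ((s₀, t₀), true) * (2 * Real.pi) +
    φ ((s₀, t₀), false) * (2 * Real.pi))) = (1 / 2) * (φ ((s₀, t₀), true) + φ ((s₀, t₀), false)) by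
      field_simp; ring] at h
  refine h.congr' ?_
  filter_upwards [eventually_gt_atTop (0 : ℝ)] with κ hκ
  have key : ∀ b, (∫ s, ∫ t, φ ((s, t), b) *
      Real.exp (κ * ((cosT (s - s₀) + cosT (t - t₀)) / 2)))
      = Real.exp κ * ∫ a in (-Real.pi)..Real.pi, ∫ c in (-Real.pi)..Real.pi, Ψ b (a, c) *
          (Real.exp (κ / 2 * (Real.cos a - 1)) * Real.exp (κ / 2 * (Real.cos c - 1))) := by
    intro b
    rw [integral_torus_shift (fun z => φ (z, b) *
      Real.exp (κ * ((cosT (z.1 - s₀) + cosT (z.2 - t₀)) / 2))) s₀ t₀,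
      ← intervalIntegral.integral_const_mul]
    refine intervalIntegral.integral_congr fun a _ => ?_
    dsimp only
    rw [← intervalIntegral.integral_const_mul]
    refine intervalIntegral.integral_congr fun c _ => ?_
    have e : Real.exp (κ * ((Real.cos a + Real.cos c) / 2))
        = Real.exp κ * (Real.exp (κ / 2 * (Real.cos a - 1)) * Real.exp (κ / 2 * (Real.cos c - 1))) := by
      rw [← Real.exp_add, ← Real.exp_add]
      ring_nf
    simp only [add_sub_cancel_left, cosT_coe, e, hΨ]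
    ring
  simp only [Fintype.sum_bool, key, Function.comp_def]
  rw [equatorIntegral_two κ hκ.ne']
  have he : Real.exp κ - Real.exp (-κ) = Real.exp κ * (1 - Real.exp (-(2 * κ))) := by
    rw [mul_sub, mul_one, ← Real.exp_add]
    ring_nf
  have h1 : Real.exp (-(2 * κ)) < 1 := Real.exp_lt_one_iff.2 (by linarith)
  have h2 : (1 - Real.exp (-(2 * κ))) ≠ 0 := by linarith
  rw [he]
  field_simp

end Vale.Agent.P224.Gap.Clifford
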